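import Vale.Agent.P127.U.H736.Nonat

/-!
# P127 / U / H824 : pattern of surprisals of nested blocks (helper824)

`F k` nested past, `Y k` the next block.  `P` law, `Q` a law dominated by `P` (for example
`Q = on P G` for a pattern event `G` of probability `p`).

* `klr Q P Z` relative entropy of the laws of `Z`; `kap Q P X C` its conditional form.
* `kap_nonneg`, `klr_mono`, `klr_le`, `sum_kap_le` : `∑ kap (Y k) (F k) ≤ log (1/p)`.
* `coll_le` : if `cp P X C ≤ thr` on the support of `Q`, then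
  `Q.ex (cp Q X C) ≤ ε + (kap + 1) / log (ε / thr)`.
* `few_bad` : number of blocks with collision probability `> 2 ε`.
* `count_ge` : number of blocks of large surprisal, from the entropies.
* `select` : choice of a value of the pattern.
-/

set_option autoImplicit false

namespace Vale.Agent.P127.U.YPat

open Finset Vale.Agent.P127 Vale.Agent.P127.Stk Vale.Agent.P127.U.Nonat

variable {Ω : Type} [Fintype Ω] {S T U V : Type*}

/-- relative entropy of the laws of `Z` -/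
noncomputable def klr (Q P : Law Ω) (Z : Ω → T) : ℝ :=
  Q.ex fun ω => Real.log (Q.pr Z (Z ω)) - Real.log (P.pr Z (Z ω))

/-- conditional relative entropy of the laws of `X` given `C` -/
noncomputable def kap (Q P : Law Ω) (X : Ω → S) (C : Ω → T) : ℝ :=
  Q.ex fun ω => Real.log (cp Q X C ω) - Real.log (cp P X C ω)

/-- collision probability of `X` given `C` -/
noncomputable def colp (Q : Law Ω) (X : Ω → S) (C : Ω → T) : ℝ := Q.ex fun ω => cp Q X C ω

theorem cp_pos {P : Law Ω} (X : Ω → S) (C : Ω → T) {ω : Ω} (h : 0 < P.w ω) : 0 < cp P X C ω :=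
  div_pos (P.pr_pos (fun ω => (X ω, C ω)) h) (P.pr_pos C h)

theorem pr_pair_le (P : Law Ω) (X : Ω → S) (C : Ω → T) (x : S) (c : T) :
    P.pr (fun ω => (X ω, C ω)) (x, c) ≤ P.pr C c :=
  Pin.pr_le_pr P fun _ h => (Prod.mk.inj h).2

theorem cp_le_one (P : Law Ω) (X : Ω → S) (C : Ω → T) (ω : Ω) : cp P X C ω ≤ 1 :=
  div_le_one_of_le₀ (pr_pair_le P X C _ _) (P.pr_nonneg _ _)

theorem ex_ratio (Q P : Law Ω) (X : Ω → S) (C : Ω → T) :
    Q.ex (fun ω => cp P X C ω / cp Q X C ω) ≤ 1 := by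
  classical
  have h1 := Pin.ex_sp Q (fun ω => (X ω, C ω)) (fun q =>
    (P.pr (fun ω => (X ω, C ω)) q / P.pr C q.2) / (Q.pr (fun ω => (X ω, C ω)) q / Q.pr C q.2))
  have h2 : Q.ex (fun ω => cp P X C ω / cp Q X C ω) = ∑ q ∈ Pin.sp Q (fun ω => (X ω, C ω)),
      Q.pr (fun ω => (X ω, C ω)) q * ((P.pr (fun ω => (X ω, C ω)) q / P.pr C q.2) /
        (Q.pr (fun ω => (X ω, C ω)) q / Q.pr C q.2)) := h1
  rw [h2]
  have h3 : ∀ q ∈ Pin.sp Q (fun ω => (X ω, C ω)),
      Q.pr (fun ω => (X ω, C ω)) q * ((P.pr (fun ω => (X ω, C ω)) q / P.pr C q.2) /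
        (Q.pr (fun ω => (X ω, C ω)) q / Q.pr C q.2)) =
      Q.pr C q.2 * (P.pr (fun ω => (X ω, C ω)) q / P.pr C q.2) := by
    intro q hq
    have h4 : 0 < Q.pr (fun ω => (X ω, C ω)) q := Pin.sp_pos Q _ hq
    have h5 : 0 < Q.pr C q.2 := h4.trans_le (pr_pair_le Q X C q.1 q.2)
    field_simp
  rw [Finset.sum_congr rfl h3]
  set A := img X
  set B := img C
  have hsub : Pin.sp Q (fun ω => (X ω, C ω)) ⊆ A ×ˢ B := by
    intro q hq
    have h4 : 0 < Q.pr (fun ω => (X ω, C ω)) q := Pin.sp_pos Q _ hq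
    by_contra hcon
    have h6 : q ∉ img (fun ω => (X ω, C ω)) := by
      intro h7
      obtain ⟨ω, rfl⟩ := mem_img.1 h7
      exact hcon (Finset.mem_product.2 ⟨mem_img.2 ⟨ω, rfl⟩, mem_img.2 ⟨ω, rfl⟩⟩)
    rw [Pin.pr_zero_of_not_img Q _ h6] at h4
    exact lt_irrefl _ h4
  refine (Finset.sum_le_sum_of_subset_of_nonneg hsub fun q _ _ =>
    mul_nonneg (Q.pr_nonneg _ _) (div_nonneg (P.pr_nonneg _ _) (P.pr_nonneg _ _))).trans ?_
  rw [Finset.sum_product_right]
  have h4 : ∀ c ∈ B, ∑ x ∈ A, Q.pr C c * (P.pr (fun ω => (X ω, C ω)) (x, c) / P.pr C c) ≤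
      Q.pr C c := by
    intro c _
    rw [← Finset.mul_sum, ← Finset.sum_div]
    have h5 : (∑ x ∈ A, P.pr (fun ω => (X ω, C ω)) (x, c)) / P.pr C c ≤ 1 :=
      div_le_one_of_le₀ (P.sum_pr_pair_le X C c A) (P.pr_nonneg _ _)
    calc _ ≤ Q.pr C c * 1 := mul_le_mul_of_nonneg_left h5 (Q.pr_nonneg _ _)
      _ = _ := mul_one _
  exact (Finset.sum_le_sum h4).trans (Pin.sum_pr_le_one Q C B)

variable {Q P : Law Ω}

theorem kap_nonneg (hQP : ∀ ω, 0 < Q.w ω → 0 < P.w ω) (X : Ω → S) (C : Ω → T) :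
    0 ≤ kap Q P X C := by
  have h1 := ex_ratio Q P X C
  have h2 : Q.ex (fun ω => 1 - cp P X C ω / cp Q X C ω) ≤ kap Q P X C := by
    refine Q.ex_mono fun ω hω => ?_
    have a := cp_pos (P := P) X C (hQP ω hω)
    have b := cp_pos (P := Q) X C hω
    have h3 := Real.log_le_sub_one_of_pos (div_pos a b)
    rw [Real.log_div a.ne' b.ne'] at h3
    linarith
  rw [Q.ex_sub, Q.ex_const] at h2
  linarith

/-- chain rule -/
theorem klr_pair (hQP : ∀ ω, 0 < Q.w ω → 0 < P.w ω) (X : Ω → S) (C : Ω → T) :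
    klr Q P (fun ω => (X ω, C ω)) = klr Q P C + kap Q P X C := by
  unfold klr kap
  rw [← Q.ex_add]
  refine Q.ex_congr fun ω hω => ?_
  have a1 := Q.pr_pos (fun ω => (X ω, C ω)) hω
  have a2 := Q.pr_pos C hω
  have b1 := P.pr_pos (fun ω => (X ω, C ω)) (hQP ω hω)
  have b2 := P.pr_pos C (hQP ω hω)
  unfold cp
  rw [Real.log_div a1.ne' a2.ne', Real.log_div b1.ne' b2.ne']
  ring

/-- if `Z` determines `C` on the support, `(Z, C)` and `Z` have the same probabilities -/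
theorem pr_pair_eq (R : Law Ω) (Z : Ω → S) (C : Ω → T)
    (h : ∀ ω ω', 0 < R.w ω → 0 < R.w ω' → Z ω = Z ω' → C ω = C ω') {ω : Ω} (hω : 0 < R.w ω) :
    R.pr (fun ω => (Z ω, C ω)) (Z ω, C ω) = R.pr Z (Z ω) := by
  classical
  unfold Law.pr
  rw [Finset.sum_filter, Finset.sum_filter]
  refine Finset.sum_congr rfl fun ω' _ => ?_
  rcases (R.nn ω').eq_or_lt with h0 | h0
  · rw [← h0]
    split_ifs <;> rfl
  · by_cases hz : Z ω' = Z ω
    · have e1 : (Z ω', C ω') = (Z ω, C ω) := by rw [hz, h ω' ω h0 hω hz]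
      rw [if_pos hz, if_pos e1]
    · have e1 : ¬ (Z ω', C ω') = (Z ω, C ω) := fun e => hz (Prod.mk.inj e).1
      rw [if_neg hz, if_neg e1]

/-- data processing -/
theorem klr_mono (hQP : ∀ ω, 0 < Q.w ω → 0 < P.w ω) (Z : Ω → S) (C : Ω → T)
    (h : ∀ ω ω', 0 < P.w ω → 0 < P.w ω' → Z ω = Z ω' → C ω = C ω') :
    klr Q P C ≤ klr Q P Z := by
  have h1 := klr_pair hQP Z C
  have h2 := kap_nonneg hQP Z C
  have h3 : klr Q P (fun ω => (Z ω, C ω)) = klr Q P Z := by
    unfold klr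
    refine Q.ex_congr fun ω hω => ?_
    rw [pr_pair_eq Q Z C (fun a b ha hb e => h a b (hQP a ha) (hQP b hb) e) hω,
      pr_pair_eq P Z C h (hQP ω hω)]
  linarith

/-- domination -/
theorem klr_le {p : ℝ} (hp : 0 < p) (hd : ∀ ω, p * Q.w ω ≤ P.w ω) (Z : Ω → S) :
    klr Q P Z ≤ Real.log (1 / p) := by
  classical
  have h1 : klr Q P Z ≤ Q.ex (fun _ => Real.log (1 / p)) := by
    refine Q.ex_mono fun ω hω => ?_
    have a := Q.pr_pos Z hω
    have h2 : p * Q.pr Z (Z ω) ≤ P.pr Z (Z ω) := by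
      unfold Law.pr
      rw [Finset.mul_sum]
      exact Finset.sum_le_sum fun ω _ => hd ω
    have h3 : Real.log (p * Q.pr Z (Z ω)) ≤ Real.log (P.pr Z (Z ω)) :=
      Real.log_le_log (mul_pos hp a) h2
    rw [Real.log_mul hp.ne' a.ne'] at h3
    rw [one_div, Real.log_inv]
    linarith
  rwa [Q.ex_const] at h1

/-- **sum of the conditional relative entropies of nested blocks** -/
theorem sum_kap_le {p : ℝ} (hp : 0 < p) (hd : ∀ ω, p * Q.w ω ≤ P.w ω) (Y : ℕ → Ω → S)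
    (F : ℕ → Ω → T) (B : ℕ)
    (hF : ∀ k, k < B → ∀ ω ω', 0 < P.w ω → 0 < P.w ω' → F (k + 1) ω = F (k + 1) ω' →
      F k ω = F k ω' ∧ Y k ω = Y k ω') :
    ∑ k ∈ range B, kap Q P (Y k) (F k) ≤ Real.log (1 / p) := by
  have hQP : ∀ ω, 0 < Q.w ω → 0 < P.w ω := fun ω h => (mul_pos hp h).trans_le (hd ω)
  have h1 : ∑ k ∈ range B, kap Q P (Y k) (F k) ≤
      ∑ k ∈ range B, (klr Q P (F (k + 1)) - klr Q P (F k)) := by
    refine Finset.sum_le_sum fun k hk => ?_
    have h2 := klr_pair hQP (Y k) (F k)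
    have h3 := klr_mono hQP (F (k + 1)) (fun ω => (Y k ω, F k ω)) (fun ω ω' a b e => by
      obtain ⟨e1, e2⟩ := hF k (Finset.mem_range.1 hk) ω ω' a b e
      rw [e1, e2])
    linarith
  rw [Finset.sum_range_sub (fun k => klr Q P (F k))] at h1
  have h4 := klr_le hp hd (F B)
  have h5 : 0 ≤ klr Q P (F 0) := by
    have h6 := klr_mono hQP (F 0) (fun _ => ()) (fun _ _ _ _ _ => rfl)
    have h7 : klr Q P (fun _ : Ω => ()) = 0 := by
      have h8 : ∀ R : Law Ω, R.pr (fun _ : Ω => ()) () = 1 := by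
        intro R
        classical
        unfold Law.pr
        simp [R.sum_one]
      unfold klr
      simp only [h8, Real.log_one, sub_zero]
      exact Q.ex_const 0
    linarith
  linarith

/-- **small collision probability** -/
theorem coll_le (hQP : ∀ ω, 0 < Q.w ω → 0 < P.w ω) (X : Ω → S) (C : Ω → T) {thr ε : ℝ}
    (ht : 0 < thr) (hε : thr < ε) (h : ∀ ω, 0 < Q.w ω → cp P X C ω ≤ thr) :
    colp Q X C ≤ ε + (kap Q P X C + 1) / Real.log (ε / thr) := by
  have hL : 0 < Real.log (ε / thr) := Real.log_pos (by rwa [one_lt_div ht])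
  have hε0 : 0 < ε := ht.trans hε
  have h1 := ex_ratio Q P X C
  have key : ∀ ω, 0 < Q.w ω → Real.log (ε / thr) * (cp Q X C ω - ε) ≤
      (Real.log (cp Q X C ω) - Real.log (cp P X C ω)) + cp P X C ω / cp Q X C ω := by
    intro ω hω
    set q := cp Q X C ω with hq
    set g := cp P X C ω with hg
    have a : 0 < g := cp_pos (P := P) X C (hQP ω hω)
    have b : 0 < q := cp_pos (P := Q) X C hω
    have hq1 : q ≤ 1 := cp_le_one Q X C ω
    have hgt : g ≤ thr := h ω hω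
    have h3 := Real.log_le_sub_one_of_pos (div_pos a b)
    rw [Real.log_div a.ne' b.ne'] at h3
    have hr : 0 ≤ g / q := (div_pos a b).le
    rcases lt_or_ge q ε with h4 | h4
    · have : Real.log (ε / thr) * (q - ε) ≤ 0 :=
        mul_nonpos_of_nonneg_of_nonpos hL.le (by linarith)
      linarith
    · have h5 : Real.log (ε / thr) ≤ Real.log q - Real.log g := by
        rw [Real.log_div hε0.ne' ht.ne']
        have := Real.log_le_log hε0 h4
        have := Real.log_le_log a hgt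
        linarith
      have h6 : Real.log (ε / thr) * (q - ε) ≤ Real.log (ε / thr) * 1 :=
        mul_le_mul_of_nonneg_left (by linarith) hL.le
      linarith
  have h2 := Q.ex_mono key
  rw [Q.ex_const_mul, Q.ex_sub, Q.ex_const, Q.ex_add] at h2
  have h3 : Real.log (ε / thr) * (colp Q X C - ε) ≤ kap Q P X C + 1 := by
    unfold colp kap
    linarith
  have h4 : colp Q X C - ε ≤ (kap Q P X C + 1) / Real.log (ε / thr) := by
    rw [le_div_iff₀ hL, mul_comm]
    exact h3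
  linarith

/-- **few blocks with a collision probability above `2 ε`** -/
theorem few_bad {p : ℝ} (hp : 0 < p) (hd : ∀ ω, p * Q.w ω ≤ P.w ω) (Y : ℕ → Ω → S)
    (F : ℕ → Ω → T) (B : ℕ)
    (hF : ∀ k, k < B → ∀ ω ω', 0 < P.w ω → 0 < P.w ω' → F (k + 1) ω = F (k + 1) ω' →
      F k ω = F k ω' ∧ Y k ω = Y k ω')
    {thr ε : ℝ} (ht : 0 < thr) (hε : thr < ε) (K : Finset ℕ) (hK : K ⊆ range B)
    (h : ∀ k ∈ K, ∀ ω, 0 < Q.w ω → cp P (Y k) (F k) ω ≤ thr) (hb : ∀ k ∈ K,
      2 * ε < colp Q (Y k) (F k)) :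
    (K.card : ℝ) * (ε * Real.log (ε / thr)) ≤ Real.log (1 / p) + K.card := by
  have hQP : ∀ ω, 0 < Q.w ω → 0 < P.w ω := fun ω h => (mul_pos hp h).trans_le (hd ω)
  have hL : 0 < Real.log (ε / thr) := Real.log_pos (by rwa [one_lt_div ht])
  have h1 := sum_kap_le hp hd Y F B hF
  have h2 : ∑ k ∈ K, kap Q P (Y k) (F k) ≤ ∑ k ∈ range B, kap Q P (Y k) (F k) :=
    Finset.sum_le_sum_of_subset_of_nonneg hK fun k _ _ => kap_nonneg hQP _ _
  have h3 : ∑ _k ∈ K, ε * Real.log (ε / thr) ≤ ∑ k ∈ K, (kap Q P (Y k) (F k) + 1) := by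
    refine Finset.sum_le_sum fun k hk => ?_
    have h4 := coll_le hQP (Y k) (F k) ht hε (h k hk)
    have h5 := hb k hk
    have h6 : ε < (kap Q P (Y k) (F k) + 1) / Real.log (ε / thr) := by linarith
    rw [lt_div_iff₀ hL] at h6
    exact h6.le
  rw [Finset.sum_const, nsmul_eq_mul, Finset.sum_add_distrib, Finset.sum_const, nsmul_eq_mul,
    mul_one] at h3
  linarith

/-- **number of blocks of large surprisal** -/
theorem count_ge (P : Law Ω) (B N : ℕ) (Y : ℕ → Ω → S) (F : ℕ → Ω → T) {a : ℝ} (ha : 0 < a)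
    (ha1 : a ≤ 1)
    (hN : ∀ b, b < B → ∃ G : Finset S, G.card ≤ N ∧ ∀ ω, 0 < P.w ω → Y b ω ∈ G) :
    ∑ b ∈ range B, hc P (Y b) (F b) - B * (Real.log 2 + Real.log (1 / a)) ≤
      P.ex (fun ω => ∑ b ∈ range B, Law.ind (cp P (Y b) (F b) ω ≤ a)) * Real.log N := by
  classical
  have h1 : ∑ b ∈ range B, hc P (Y b) (F b) ≤ ∑ b ∈ range B,
      (Real.log 2 + Real.log (1 / a) + prE P (fun ω => cp P (Y b) (F b) ω ≤ a) * Real.log N) :=
    Finset.sum_le_sum fun b hb => hc_le_surp P (Y b) (F b) N ha ha1 (hN b (mem_range.1 hb))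
  rw [Finset.sum_add_distrib, Finset.sum_const, card_range, nsmul_eq_mul, ← Finset.sum_mul] at h1
  have h2 : P.ex (fun ω => ∑ b ∈ range B, Law.ind (cp P (Y b) (F b) ω ≤ a)) =
      ∑ b ∈ range B, prE P (fun ω => cp P (Y b) (F b) ω ≤ a) := by
    unfold Law.ex
    simp only [Finset.mul_sum]
    rw [Finset.sum_comm]
    refine Finset.sum_congr rfl fun b _ => ?_
    unfold prE
    rw [Finset.sum_filter]
    refine Finset.sum_congr rfl fun ω _ => ?_
    unfold Law.ind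
    split_ifs <;> simp
  rw [h2]
  linarith

/-- a bounded nonnegative variable with a large mean is large with positive probability -/
theorem prE_ge_of_ex (P : Law Ω) (f : Ω → ℝ) {M x : ℝ} (hM : 0 < M) (hx : 0 ≤ x)
    (h : ∀ ω, 0 < P.w ω → f ω ≤ M) :
    (P.ex f - x) / M ≤ prE P (fun ω => x ≤ f ω) := by
  classical
  rw [div_le_iff₀ hM]
  have h1 : P.ex f ≤ P.ex (fun ω => x + Law.ind (x ≤ f ω) * M) := by
    refine P.ex_mono fun ω hω => ?_
    unfold Law.ind
    split_ifs with h2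
    · have := h ω hω
      linarith
    · linarith
  rw [P.ex_add, P.ex_const] at h1
  have h2 : P.ex (fun ω => Law.ind (x ≤ f ω) * M) = prE P (fun ω => x ≤ f ω) * M := by
    unfold Law.ex prE
    rw [Finset.sum_mul, Finset.sum_filter]
    refine Finset.sum_congr rfl fun ω _ => ?_
    unfold Law.ind
    by_cases hh : x ≤ f ω <;> simp [hh]
  rw [h2] at h1
  linarith

/-- **selection of a value of the pattern** -/
theorem select (P : Law Ω) (Pt : Ω → S) (A : S → Prop) (F₀ : S → ℝ) {F₁ d q₀ : ℝ} {M : ℕ}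
    (hM : (img Pt).card ≤ M) (hd : 0 < d) (hq : 0 < q₀)
    (h1 : ∀ e, 0 < P.pr Pt e → F₀ e ≤ F₁)
    (h2 : F₁ - d ≤ P.ex (fun ω => F₀ (Pt ω)))
    (h3 : q₀ ≤ prE P (fun ω => A (Pt ω))) :
    ∃ e, A e ∧ F₁ - 3 * d / q₀ ≤ F₀ e ∧ q₀ / (3 * M) ≤ P.pr Pt e ∧ 0 < P.pr Pt e := by
  classical
  by_contra hcon
  push Not at hcon
  have hMpos : 0 < M := by
    have hne : (img Pt).Nonempty := by
      by_contra h0
      rw [Finset.not_nonempty_iff_eq_empty] at h0
      have := P.sum_pr_image Pt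
      rw [h0, Finset.sum_empty] at this
      exact absurd this (by norm_num)
    exact (Finset.card_pos.2 hne).trans_le hM
  have hM' : (0 : ℝ) < M := by exact_mod_cast hMpos
  have e1 : prE P (fun ω => A (Pt ω)) = ∑ e ∈ (img Pt).filter A, P.pr Pt e := by
    have h4 : prE P (fun ω => A (Pt ω)) = P.ex (fun ω => Law.ind (A (Pt ω))) := by
      unfold prE Law.ex
      rw [Finset.sum_filter]
      refine Finset.sum_congr rfl fun ω _ => ?_
      unfold Law.ind
      by_cases hh : A (Pt ω) <;> simp [hh]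
    rw [h4, P.ex_comp Pt (fun e => Law.ind (A e)), Finset.sum_filter]
    refine Finset.sum_congr rfl fun e _ => ?_
    unfold Law.ind
    by_cases hh : A e <;> simp [hh]
  -- small probabilities
  have e2 : ∑ e ∈ (img Pt).filter (fun e => A e ∧ P.pr Pt e < q₀ / (3 * M)), P.pr Pt e ≤ q₀ / 3 := by
    calc _ ≤ ∑ _e ∈ (img Pt).filter (fun e => A e ∧ P.pr Pt e < q₀ / (3 * M)), q₀ / (3 * M) :=
          Finset.sum_le_sum fun e he => (Finset.mem_filter.1 he).2.2.le
      _ ≤ ∑ _e ∈ img Pt, q₀ / (3 * M) :=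
          Finset.sum_le_sum_of_subset_of_nonneg (Finset.filter_subset _ _) fun _ _ _ => by positivity
      _ = (img Pt).card * (q₀ / (3 * M)) := by rw [Finset.sum_const, nsmul_eq_mul]
      _ ≤ M * (q₀ / (3 * M)) := mul_le_mul_of_nonneg_right (by exact_mod_cast hM) (by positivity)
      _ = q₀ / 3 := by field_simp
  -- large defects
  have e3 : P.ex (fun ω => F₁ - F₀ (Pt ω)) ≤ d := by
    rw [P.ex_sub, P.ex_const]
    linarith
  have e4 : P.ex (fun ω => F₁ - F₀ (Pt ω)) = ∑ e ∈ img Pt, P.pr Pt e * (F₁ - F₀ e) :=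
    P.ex_comp Pt (fun e => F₁ - F₀ e)
  have e5 : ∀ e ∈ img Pt, 0 ≤ P.pr Pt e * (F₁ - F₀ e) := by
    intro e _
    rcases (P.pr_nonneg Pt e).eq_or_lt with h0 | h0
    · rw [← h0, zero_mul]
    · exact mul_nonneg h0.le (by linarith [h1 e h0])
  have e6 : (∑ e ∈ (img Pt).filter (fun e => A e ∧ q₀ / (3 * M) ≤ P.pr Pt e ∧ 0 < P.pr Pt e),
      P.pr Pt e) * (3 * d / q₀) ≤ d := by
    rw [Finset.sum_mul]
    refine le_trans ?_ (e4 ▸ e3)
    refine le_trans (Finset.sum_le_sum (g := fun e => P.pr Pt e * (F₁ - F₀ e)) fun e he => ?_)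
      (Finset.sum_le_sum_of_subset_of_nonneg (Finset.filter_subset _ _) fun e he _ => e5 e he)
    obtain ⟨-, a1, a2, a3⟩ := Finset.mem_filter.1 he
    by_contra hc
    rw [not_le] at hc
    have h5 : F₁ - F₀ e < 3 * d / q₀ := by
      by_contra h6
      rw [not_lt] at h6
      exact absurd (mul_le_mul_of_nonneg_left h6 a3.le) (not_le.2 hc)
    have h7 := hcon e a1 (by linarith) a2
    linarith
  have e7 : ∑ e ∈ (img Pt).filter (fun e => A e ∧ q₀ / (3 * M) ≤ P.pr Pt e ∧ 0 < P.pr Pt e),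
      P.pr Pt e ≤ q₀ / 3 := by
    have h6 : (∑ e ∈ (img Pt).filter (fun e => A e ∧ q₀ / (3 * M) ≤ P.pr Pt e ∧ 0 < P.pr Pt e),
      P.pr Pt e) * (3 * d / q₀) ≤ (q₀ / 3) * (3 * d / q₀) := by
      refine e6.trans (le_of_eq ?_)
      field_simp
    exact le_of_mul_le_mul_right h6 (by positivity)
  have e8 : ∑ e ∈ (img Pt).filter A, P.pr Pt e ≤
      ∑ e ∈ (img Pt).filter (fun e => A e ∧ P.pr Pt e < q₀ / (3 * M)), P.pr Pt e +
      ∑ e ∈ (img Pt).filter (fun e => A e ∧ q₀ / (3 * M) ≤ P.pr Pt e ∧ 0 < P.pr Pt e),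
        P.pr Pt e := by
    rw [Finset.sum_filter, Finset.sum_filter, Finset.sum_filter, ← Finset.sum_add_distrib]
    refine Finset.sum_le_sum fun e _ => ?_
    have hpos : 0 < q₀ / (3 * M) := by positivity
    have h0 := P.pr_nonneg Pt e
    by_cases ha : A e
    · rcases lt_or_ge (P.pr Pt e) (q₀ / (3 * M)) with hb | hb
      · rw [if_pos ha, if_pos ⟨ha, hb⟩]
        split_ifs <;> linarith
      · rw [if_pos ha, if_neg (fun h => absurd h.2 (not_lt.2 hb)), if_pos ⟨ha, hb, hpos.trans_le hb⟩]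
        linarith
    · rw [if_neg ha, if_neg (fun h => ha h.1), if_neg (fun h => ha h.1)]
      linarith
  rw [e1] at h3
  linarith

/-- domination of the conditioned law -/
theorem on_dom (P : Law Ω) (G : Ω → Prop) (h : 0 < prE P G) (ω : Ω) :
    prE P G * (on P G).w ω ≤ P.w ω := by
  classical
  rw [on_w h]
  split_ifs
  · rw [mul_div_cancel₀ _ h.ne']
  · rw [mul_zero]
    exact P.nn ω

end Vale.Agent.P127.U.YPat
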