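import Vale.Agent.P127.U.PathU

/-!
# P127 / U / H824 : start, cut and cost of the path of rule R* (helper824)

Generic exploration `e`, law `Q` with the word `E` (`PathS.Cnd`).

* `ai_mono'`, `ri_mono'` : monotone for all indices.
* `exists_start` : index `i₀` of the first step of the time: before it there are only steps of the slope.
* `exists_cut` : the last index `k` with `ai ≤ Ac`, `ri ≤ Rc`.
* `cost_cut` : cost of the steps of the slope before the time is exhausted.
* `exists_thin` : the last thin index `i ≤ k`; at most one step of the time after it.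
* `thin_alt` : alternative for the collisions of the next `j` blocks at a thin index, with side
  information on an extension.
-/

set_option autoImplicit false

namespace Vale.Agent.P127.U.PathS

open Finset Vale.Agent.P127 Vale.Agent.P127.Stk Vale.Agent.P127.U.Path

variable {Ω : Type} [Fintype Ω] {α β γ : Type*}

namespace Cnd

open Expl

variable {e : Expl Ω α β γ} {P Q : Law Ω} {E : List Lt} {p : ℝ} (h : Cnd e P Q E p)

include h

lemma ai_mono' : Monotone (e.ai E) := by
  intro i j hij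
  rcases le_total j (e.A + e.R) with hj | hj
  · exact h.ai_mono hij hj
  · have h1 : e.ai E j = e.ai E (e.A + e.R) := by
      unfold Expl.ai
      rw [Nat.sub_eq_zero_of_le hj, Nat.sub_self]
    rw [h1]
    rcases le_total i (e.A + e.R) with hi | hi
    · exact h.ai_mono hi le_rfl
    · refine le_of_eq ?_
      unfold Expl.ai
      rw [Nat.sub_eq_zero_of_le hi, Nat.sub_self]

lemma ri_mono' : Monotone (e.ri E) := by
  intro i j hij
  rcases le_total j (e.A + e.R) with hj | hj
  · exact h.ri_mono hij hj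
  · have h1 : e.ri E j = e.ri E (e.A + e.R) := by
      unfold Expl.ri
      rw [Nat.sub_eq_zero_of_le hj, Nat.sub_self]
    rw [h1]
    rcases le_total i (e.A + e.R) with hi | hi
    · exact h.ri_mono hi le_rfl
    · refine le_of_eq ?_
      unfold Expl.ri
      rw [Nat.sub_eq_zero_of_le hi, Nat.sub_self]

/-- index of the first step of the time -/
theorem exists_start (hA : 0 < e.A) : ∃ i₀, i₀ < e.A + e.R ∧ e.ai E i₀ = 0 ∧ e.ri E i₀ = i₀ ∧
    e.ai E (i₀ + 1) = e.ai E i₀ + 1 ∧ e.thin E i₀ := by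
  classical
  have hex : ∃ i, i < e.A + e.R ∧ e.ai E (i + 1) = e.ai E i + 1 := by
    by_contra hcon
    push Not at hcon
    have key : ∀ i, i ≤ e.A + e.R → e.ai E i = 0 := by
      intro i
      induction i with
      | zero => exact fun _ => h.ai_zero
      | succ i ih =>
        intro hi
        rcases h.step_cases (i := i) hi with h1 | h1
        · exact absurd h1.1 (hcon i hi)
        · rw [h1.1, ih (by omega)]
    have := key _ le_rfl
    rw [h.ai_top] at this
    omega
  obtain ⟨h1, h2⟩ := Nat.find_spec hex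
  have h3 : ∀ i, i ≤ Nat.find hex → e.ai E i = 0 := by
    intro i
    induction i with
    | zero => exact fun _ => h.ai_zero
    | succ i ih =>
      intro hi
      have hlt : i < e.A + e.R := by omega
      rcases h.step_cases hlt with h4 | h4
      · exact absurd ⟨hlt, h4.1⟩ (Nat.find_min hex (by omega))
      · rw [h4.1, ih (by omega)]
  have h4 := h3 _ le_rfl
  have h5 := h.ai_add_ri h1.le
  exact ⟨Nat.find hex, h1, h4, by omega, h2, h.thin_of_a h1 h2⟩

/-- **the cut** : last index with `ai ≤ Ac`, `ri ≤ Rc` -/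
theorem exists_cut {Ac Rc i₀ : ℕ} (hAc : Ac < e.A) (ha : e.ai E i₀ ≤ Ac) (hr : e.ri E i₀ ≤ Rc) :
    ∃ k, i₀ ≤ k ∧ k < e.A + e.R ∧ e.ai E k ≤ Ac ∧ e.ri E k ≤ Rc ∧
      (e.ai E k = Ac ∨ e.ri E k = Rc) := by
  classical
  have hex : ∃ j, i₀ ≤ j ∧ ¬ (e.ai E j ≤ Ac ∧ e.ri E j ≤ Rc) := by
    refine ⟨max i₀ (e.A + e.R), le_max_left _ _, ?_⟩
    intro hc
    have h1 := h.ai_mono' (le_max_right i₀ (e.A + e.R))
    rw [h.ai_top] at h1
    omega
  obtain ⟨h1, h2⟩ := Nat.find_spec hex
  have hne : Nat.find hex ≠ i₀ := by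
    intro hc
    rw [hc] at h2
    exact h2 ⟨ha, hr⟩
  obtain ⟨k, hk⟩ : ∃ k, Nat.find hex = k + 1 := Nat.exists_eq_succ_of_ne_zero (by omega)
  have hik : i₀ ≤ k := by omega
  have h3 : e.ai E k ≤ Ac ∧ e.ri E k ≤ Rc := by
    by_contra hc
    exact Nat.find_min hex (by omega) ⟨hik, hc⟩
  have hkn : k < e.A + e.R := by
    by_contra hc
    have h4 := h.ai_mono' (not_lt.1 hc)
    rw [h.ai_top] at h4
    omega
  rw [hk] at h2
  refine ⟨k, hik, hkn, h3.1, h3.2, ?_⟩
  rcases h.step_cases hkn with h5 | h5 <;> omega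

/-- **cost of the steps of the slope** before the time is exhausted -/
theorem cost_cut (hJ : 0 < e.J) (h0 : 0 < e.thr) (h1 : e.thr ≤ 1) {M : ℝ}
    (hM0 : 0 ≤ M) (hM : ∀ a r, hc Q (e.vv (r + 1)) (e.K a r) ≤ M) {k : ℕ} (hk : k ≤ e.A + e.R)
    (hkA : ∀ j < k, e.ai E j < e.A) :
    ∑ j ∈ Finset.range k, (if e.ri E (j + 1) = e.ri E j + 1 then
        hc Q (e.vv (e.ri E j + 1)) (e.K (e.ai E j) (e.ri E j)) else 0) ≤
      e.R * Real.log (1 / e.thr) + (e.A / e.J : ℝ) * M := by
  classical
  set n := e.A + e.R with hn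
  have a1 := h.cost_aux h0 h1 n 0 (Nat.zero_le _) (Nat.sub_zero n) (fun ω _ => pnd_zero ω)
  rw [h.ri_zero] at a1
  simp only [Nat.cast_zero, sub_zero] at a1
  rw [← hn, Nat.Ico_zero_eq_range] at a1
  set F : ℕ → Prop := fun j => e.ri E (j + 1) = e.ri E j + 1 ∧
      e.J ≤ (E.drop (n - j)).length ∧ ∀ b ∈ (E.drop (n - j)).take e.J, b = Lt.a with hF
  have key : ∀ j ∈ Finset.range n,
      (if e.ri E (j + 1) = e.ri E j + 1 ∧ e.forced (E.drop (n - j)) then
        hc Q (e.vv (e.ri E j + 1)) (e.K (e.ai E j) (e.ri E j)) else 0) ≤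
      (if F j then M else 0) +
      (if e.ri E (j + 1) = e.ri E j + 1 ∧ e.ai E j = e.A then
        hc Q (e.vv (e.ri E j + 1)) (e.K (e.ai E j) (e.ri E j)) else 0) := by
    intro j hj
    have hj' : j < n := Finset.mem_range.1 hj
    have hc0 := hc_nonneg Q (e.vv (e.ri E j + 1)) (e.K (e.ai E j) (e.ri E j))
    have hF0 : 0 ≤ (if F j then M else 0) := by
      by_cases hf : F j
      · rw [if_pos hf]; exact hM0
      · rw [if_neg hf]
    have hG0 : 0 ≤ (if e.ri E (j + 1) = e.ri E j + 1 ∧ e.ai E j = e.A then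
        hc Q (e.vv (e.ri E j + 1)) (e.K (e.ai E j) (e.ri E j)) else 0) := by
      split_ifs
      · exact hc0
      · exact le_rfl
    by_cases hr : e.ri E (j + 1) = e.ri E j + 1 ∧ e.forced (E.drop (n - j))
    · rw [if_pos hr]
      rcases hr.2 with h3 | h3
      · have h4 : e.ai E j = e.A := by
          have h5 := h.ai_le hj'.le
          unfold Expl.ai at h5 ⊢
          rw [hn] at h3
          omega
        have c1 : (if e.ri E (j + 1) = e.ri E j + 1 ∧ e.ai E j = e.A then
          hc Q (e.vv (e.ri E j + 1)) (e.K (e.ai E j) (e.ri E j)) else 0) =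
          hc Q (e.vv (e.ri E j + 1)) (e.K (e.ai E j) (e.ri E j)) := if_pos ⟨hr.1, h4⟩
        rw [c1]
        linarith
      · have h4 : F j := ⟨hr.1, h3⟩
        rw [if_pos h4]
        have := hM (e.ai E j) (e.ri E j)
        linarith
    · rw [if_neg hr]
      linarith
  have a2 := Finset.sum_le_sum key
  rw [Finset.sum_add_distrib] at a2
  have s2 : ∑ j ∈ Finset.range n, (if F j then M else 0) ≤ (e.A / e.J : ℝ) * M := by
    rw [← Finset.sum_filter, Finset.sum_const, nsmul_eq_mul]
    refine mul_le_mul_of_nonneg_right ?_ hM0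
    have hJ' : (0 : ℝ) < e.J := by exact_mod_cast hJ
    rw [le_div_iff₀ hJ']
    have h5 := h.forced_card n le_rfl
    rw [h.ai_top] at h5
    have h6 : e.J * ((Finset.range n).filter F).card ≤ e.A := by
      have : (Finset.range n).filter F = (Finset.range n).filter
        (fun j => e.ri E (j + 1) = e.ri E j + 1 ∧
          e.J ≤ (E.drop (e.A + e.R - j)).length ∧
          ∀ b ∈ (E.drop (e.A + e.R - j)).take e.J, b = Lt.a) := rfl
      rw [this]
      omega
    have h7 : ((e.J * ((Finset.range n).filter F).card : ℕ) : ℝ) ≤ e.A := by exact_mod_cast h6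
    push_cast at h7
    linarith
  -- the steps with exhausted time come after `k`
  have s3 : ∑ j ∈ Finset.range n, (if e.ri E (j + 1) = e.ri E j + 1 then
        hc Q (e.vv (e.ri E j + 1)) (e.K (e.ai E j) (e.ri E j)) else 0) =
      ∑ j ∈ Finset.range k, (if e.ri E (j + 1) = e.ri E j + 1 then
        hc Q (e.vv (e.ri E j + 1)) (e.K (e.ai E j) (e.ri E j)) else 0) +
      ∑ j ∈ Finset.Ico k n, (if e.ri E (j + 1) = e.ri E j + 1 then
        hc Q (e.vv (e.ri E j + 1)) (e.K (e.ai E j) (e.ri E j)) else 0) :=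
    (Finset.sum_range_add_sum_Ico _ hk).symm
  have s4 : ∑ j ∈ Finset.range n, (if e.ri E (j + 1) = e.ri E j + 1 ∧ e.ai E j = e.A then
        hc Q (e.vv (e.ri E j + 1)) (e.K (e.ai E j) (e.ri E j)) else 0) =
      ∑ j ∈ Finset.range k, (if e.ri E (j + 1) = e.ri E j + 1 ∧ e.ai E j = e.A then
        hc Q (e.vv (e.ri E j + 1)) (e.K (e.ai E j) (e.ri E j)) else 0) +
      ∑ j ∈ Finset.Ico k n, (if e.ri E (j + 1) = e.ri E j + 1 ∧ e.ai E j = e.A then
        hc Q (e.vv (e.ri E j + 1)) (e.K (e.ai E j) (e.ri E j)) else 0) :=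
    (Finset.sum_range_add_sum_Ico _ hk).symm
  have s5 : ∑ j ∈ Finset.range k, (if e.ri E (j + 1) = e.ri E j + 1 ∧ e.ai E j = e.A then
        hc Q (e.vv (e.ri E j + 1)) (e.K (e.ai E j) (e.ri E j)) else 0) = 0 := by
    refine Finset.sum_eq_zero fun j hj => ?_
    rw [if_neg]
    intro hc
    have := hkA j (Finset.mem_range.1 hj)
    omega
  have s6 : ∑ j ∈ Finset.Ico k n, (if e.ri E (j + 1) = e.ri E j + 1 ∧ e.ai E j = e.A then
        hc Q (e.vv (e.ri E j + 1)) (e.K (e.ai E j) (e.ri E j)) else 0) ≤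
      ∑ j ∈ Finset.Ico k n, (if e.ri E (j + 1) = e.ri E j + 1 then
        hc Q (e.vv (e.ri E j + 1)) (e.K (e.ai E j) (e.ri E j)) else 0) := by
    refine Finset.sum_le_sum fun j _ => ?_
    have hc0 := hc_nonneg Q (e.vv (e.ri E j + 1)) (e.K (e.ai E j) (e.ri E j))
    by_cases hr : e.ri E (j + 1) = e.ri E j + 1
    · rw [if_pos hr]
      split_ifs
      · exact le_rfl
      · exact hc0
    · rw [if_neg hr, if_neg (fun hh => hr hh.1)]
  linarith

/-- **the last thin index** `i ≤ k` : at most one step of the time between `i` and `k` -/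
theorem exists_thin {i₀ k : ℕ} (hik : i₀ ≤ k) (hk : k < e.A + e.R) (ht : e.thin E i₀) :
    ∃ i, i₀ ≤ i ∧ i ≤ k ∧ e.thin E i ∧ e.ai E k ≤ e.ai E i + 1 := by
  classical
  induction k, hik using Nat.le_induction with
  | base => exact ⟨i₀, le_rfl, le_rfl, ht, Nat.le_succ _⟩
  | succ k hik ih =>
    obtain ⟨i, h1, h2, h3, h4⟩ := ih (by omega)
    by_cases hth : e.thin E (k + 1)
    · exact ⟨k + 1, by omega, le_rfl, hth, Nat.le_succ _⟩
    · rcases h.step_cases (i := k) (by omega) with h5 | h5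
      · -- a step of the time at `k` : `k` is thin
        refine ⟨k, hik, Nat.le_succ _, h.thin_of_a (by omega) h5.1, by omega⟩
      · exact ⟨i, h1, by omega, h3, by omega⟩

/-- **alternative at a thin index** : either the next `j` blocks rarely agree, or the divergence and
the information of the shape are at least proportional to `j` -/
theorem thin_alt {Ω' : Type} [Fintype Ω'] {Q' : Law Ω'} {π : Ω' → Ω}
    (hπ : ∀ ω, Q'.pr π ω = Q.w ω) {δ : Type*} (σ : Ω' → δ) {i : ℕ} (hi : i < e.A + e.R)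
    (ht : e.thin E i) {j : ℕ} (hj : 1 ≤ j) (hR : e.ri E i + j ≤ e.R) (h0 : 0 < e.thr) :
    coll Q' (fun ω => e.vv (e.ri E i + j) (π ω))
      (fun ω => (e.K (e.ai E i) (e.ri E i) (π ω), σ ω)) ≤ 1 / 6 ∨
    j * Real.log (1 / e.thr) ≤ 12 * (Real.log (1 / p) +
      mi Q' (fun ω => e.vv (e.ri E i + j) (π ω)) σ
        (fun ω => e.K (e.ai E i) (e.ri E i) (π ω))) + 15 := by
  by_cases hc : coll Q' (fun ω => e.vv (e.ri E i + j) (π ω))
      (fun ω => (e.K (e.ai E i) (e.ri E i) (π ω), σ ω)) ≤ 1 / 6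
  · exact Or.inl hc
  · right
    have hkap : kap e P Q E i j ≤ Real.log (1 / p) := by
      have h1 := h.kap_le (i := i) (i' := e.A + e.R) hi.le le_rfl (j := j) (by rw [h.ri_top]; exact hR)
      have h2 := h.klk_le (e.A + e.R)
      have h3 := h.klk_nonneg i
      linarith
    have hmi := mi_nonneg Q' (fun ω => e.vv (e.ri E i + j) (π ω)) σ
        (fun ω => e.K (e.ai E i) (e.ri E i) (π ω))
    have hk0 := h.kap_nonneg hi.le j
    have hlog : Real.log (1 / e.thr ^ j) = j * Real.log (1 / e.thr) := by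
      rw [← Real.log_pow, one_div_pow]
    have hl12 : Real.log 12 ≤ 3 := by
      rw [Real.log_le_iff_le_exp (by norm_num)]
      have := Real.exp_one_gt_d9
      have h3 : Real.exp 3 = Real.exp 1 ^ 3 := by
        rw [← Real.exp_nat_mul]
        norm_num
      rw [h3]
      have h4 : (2.7 : ℝ) ^ 3 ≤ Real.exp 1 ^ 3 :=
        pow_le_pow_left₀ (by norm_num) (by linarith) 3
      have h5 : (12 : ℝ) ≤ 2.7 ^ 3 := by norm_num
      linarith
    have hpp := pow_pos h0 j
    rcases lt_or_ge (e.thr ^ j) (1 / 12) with h1 | h1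
    · have h2 := h.coll_thin hπ σ hi ht hj hR h0 (ε := 1 / 12) h1
      have h3 : 0 < Real.log (1 / 12 / e.thr ^ j) :=
        Real.log_pos (by rw [lt_div_iff₀ hpp]; linarith)
      have h4 : (1 : ℝ) / 12 < (kap e P Q E i j + mi Q' (fun ω => e.vv (e.ri E i + j) (π ω)) σ
        (fun ω => e.K (e.ai E i) (e.ri E i) (π ω)) + 1) / Real.log (1 / 12 / e.thr ^ j) := by
        push Not at hc
        linarith
      rw [lt_div_iff₀ h3] at h4
      have h5 : Real.log (1 / 12 / e.thr ^ j) = j * Real.log (1 / e.thr) - Real.log 12 := by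
        rw [← hlog, show (1 / 12 / e.thr ^ j : ℝ) = (1 / e.thr ^ j) / 12 by ring,
          Real.log_div (by positivity) (by norm_num)]
      rw [h5] at h4
      linarith
    · have h2 : Real.log (1 / e.thr ^ j) ≤ Real.log 12 := by
        refine Real.log_le_log (by positivity) ?_
        rw [div_le_iff₀ hpp]
        linarith
      rw [hlog] at h2
      have h3 : 0 ≤ Real.log (1 / p) := by
        have := h.klk_le 0
        have := h.klk_nonneg 0
        linarith
      linarith

end Cnd

end Vale.Agent.P127.U.PathS
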