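import Vale.Agent.P127.U.H824.Budget
import Vale.Agent.P127.U.Lam.IncDefs

/-!
# P127 / U / H824 : consequences of the interface `Inc.Incr` along a path (helper824)

`α i`, `ρ i` : levels of the time and of the slope after `i` steps, `α 0 = 0`.

* `Pl` : admissible levels, `cost` : entropy of the digits of `v` revealed by the path.
* `bud` : the sum of the defects of the windows of any partition is at most `DEL`.
* `one_def` : the defect of the window `[i, end]`.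
* `end7` : if `q - ρ i ≤ δ (h - α i)` then `h - α i` is small.
* `lip_end` : LIP for the window `[i, end]`.
* `tail_inc` : at the exit `h - α n` and `q - ρ n` are small;  `start_inc` : `q - ρ 0 > δ h`.
-/

set_option autoImplicit false

namespace Vale.Agent.P127.U.Bud

open Finset Vale.Agent.P127 Vale.Agent.P127.Stk Vale.Agent.P127.U Vale.Agent.P127.U.Inc
  Vale.Agent.P127.U.Mic

variable {Ω : Type} [Fintype Ω] {N lam β δ ε Λ B d : ℝ} {Q : Law Ω} {l : Ω → Ln} {t v : Ω → ℝ}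
  {n h q : ℕ} {E : ℕ → ℕ → ℝ}

/-- admissible levels: `k` steps -/
structure Pl (h q k : ℕ) (α ρ : ℕ → ℕ) : Prop where
  ma : Monotone α
  mr : Monotone ρ
  a0 : α 0 = 0
  ah : α k ≤ h
  rq : ρ k ≤ q

/-- entropy of the digits of `v` revealed in the first `k` steps -/
noncomputable def cost (Q : Law Ω) (l : Ω → Ln) (t v : Ω → ℝ) (n : ℕ) (α ρ : ℕ → ℕ) (k : ℕ) : ℝ :=
  hc Q (st t v (α 0) (ρ 0)) (fun ω => tb n (l ω)) +
    ∑ j ∈ range k, hc Q (fun ω => fl1 (ρ (j + 1)) (v ω)) (fun ω => (tb n (l ω), st t v (α j) (ρ j) ω))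

/-- defect of the window from the levels `(a, r)` to the level `a'` of the time, increment `x` -/
noncomputable def dft (N β : ℝ) (Q : Law Ω) (l : Ω → Ln) (t v : Ω → ℝ) (n a r a' : ℕ) (x : ℝ) : ℝ :=
  β * ((a' : ℝ) - a) * Real.log 2 + N * (((a' : ℝ) - a) * Real.log 2 -
    hc Q (fun ω => fl1 a' (t ω)) (fun ω => (tb n (l ω), st t v a r ω))) - x

/-- total budget -/
noncomputable def DEL (N d ε B : ℝ) (Q : Law Ω) (l : Ω → Ln) (t v : Ω → ℝ) (n h : ℕ)
    (α ρ : ℕ → ℕ) (k : ℕ) : ℝ :=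
  (d + ε) * h * Real.log 2 + B * (1 + Real.log (n + 1)) + N * cost Q l t v n α ρ k

theorem cost_mono (Q : Law Ω) (l : Ω → Ln) (t v : Ω → ℝ) (n : ℕ) (α ρ : ℕ → ℕ) {i k : ℕ}
    (hik : i ≤ k) : cost Q l t v n α ρ i ≤ cost Q l t v n α ρ k :=
  add_le_add le_rfl (Finset.sum_le_sum_of_subset_of_nonneg (Finset.range_mono hik)
    fun _ _ _ => hc_nonneg Q _ _)

theorem DEL_mono (hN : 0 ≤ N) (Q : Law Ω) (l : Ω → Ln) (t v : Ω → ℝ) (n h : ℕ) (α ρ : ℕ → ℕ)
    {i k : ℕ} (hik : i ≤ k) : DEL N d ε B Q l t v n h α ρ i ≤ DEL N d ε B Q l t v n h α ρ k :=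
  add_le_add le_rfl (mul_le_mul_of_nonneg_left (cost_mono Q l t v n α ρ hik) hN)

theorem DF_one (Q : Law Ω) (l : Ω → Ln) (t : Ω → ℝ) (n h : ℕ) :
    DF Q h n l t (fun _ => ()) = h * Real.log 2 - hc Q (fun ω => fl1 h (t ω)) (fun ω => tb n (l ω)) := by
  unfold DF
  rw [hc_congr Q (X := fun ω => fl1 h (t ω)) (X' := fun ω => fl1 h (t ω))
    (Y := fun ω => (tb n (l ω), ())) (Y' := fun ω => tb n (l ω))
    (fun ω ω' _ _ e => congrArg Prod.fst e) (fun ω ω' _ _ e => congrArg Prod.fst e)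
    (fun ω ω' _ _ e => Prod.ext e rfl) (fun ω ω' _ _ e => congrArg Prod.fst e)]

/-- **BUDGET** : the sum of the defects of the windows `[sg k, sg (k+1)]`, `k < M`, and of the last window
`[sg M, end]` -/
theorem bud (hN : 0 ≤ N) (H : Incr N lam β δ ε Λ B Q l t v n h q E) (hV : Vc N lam β d Q l t v n h q)
    {α ρ : ℕ → ℕ} {sg : ℕ → ℕ} (hsg : Monotone sg) (h0 : sg 0 = 0) {M : ℕ}
    (hp : Pl h q (sg M) α ρ) :
    ∑ k ∈ range M, dft N β Q l t v n (α (sg k)) (ρ (sg k)) (α (sg (k + 1)))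
        (E (α (sg (k + 1))) (ρ (sg (k + 1))) - E (α (sg k)) (ρ (sg k))) +
      dft N β Q l t v n (α (sg M)) (ρ (sg M)) h
        (valE lam Q l t v n h q - E (α (sg M)) (ρ (sg M))) ≤
      DEL N d ε B Q l t v n h α ρ (sg M) := by
  have h1 := H.start (ρ 0) ((hp.mr (Nat.zero_le _)).trans hp.rq)
  have h2 := hV
  unfold Vc at h2
  rw [DF_one] at h2
  have h3 := sum_def Q (fun ω => tb n (l ω)) t v (α := α) ρ hp.ma hsg M h (N := N) (β := β)
    (Δ := (d + ε) * h * Real.log 2 + B * (1 + Real.log (n + 1)))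
    (E := valE lam Q l t v n h q) (fun k => E (α (sg k)) (ρ (sg k))) hN (by
      show _ ≤ valE lam Q l t v n h q - E (α (sg 0)) (ρ (sg 0))
      rw [h0, hp.a0]
      nlinarith)
  rw [h0, hp.a0] at h3
  simp only [Nat.cast_zero, zero_mul, mul_zero, sub_zero] at h3
  have h4 : cost Q l t v n α ρ (sg M) = hc Q (TT t v (α 0, ρ 0)) (fun ω => tb n (l ω)) +
      ∑ j ∈ Ico 0 (sg M), hc Q (fun ω => fl1 (ρ (j + 1)) (v ω))
        (fun ω => (tb n (l ω), TT t v (α j, ρ j) ω)) := by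
    rw [← Finset.range_eq_Ico]
    rfl
  unfold DEL
  rw [h4, hp.a0]
  refine le_trans (le_of_eq ?_) h3
  congr 1
  · refine Finset.sum_congr rfl fun k _ => ?_
    unfold dft
    rw [mul_assoc]
    rfl
  · unfold dft
    rw [mul_assoc]
    rfl

/-- defects are almost nonnegative -/
theorem dft_ge (H : Incr N lam β δ ε Λ B Q l t v n h q E) {a a' r r' : ℕ} (ha : a ≤ a') (hh : a' ≤ h)
    (hr : r ≤ r') (hq : r' ≤ q) : -er ε B a a' r r' ≤ dft N β Q l t v n a r a' (E a' r' - E a r) := by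
  have h1 := H.win a a' r r' ha hh hr hq
  unfold dft
  linarith

/-- **defect of the window `[i, end]`** -/
theorem one_def (hN : 0 ≤ N) (hε : 0 ≤ ε) (hB : 0 ≤ B) (H : Incr N lam β δ ε Λ B Q l t v n h q E)
    (hV : Vc N lam β d Q l t v n h q) {α ρ : ℕ → ℕ} {k i : ℕ} (hp : Pl h q k α ρ) (hi : i ≤ k) :
    dft N β Q l t v n (α i) (ρ i) h (valE lam Q l t v n h q - E (α i) (ρ i)) ≤
      DEL N d ε B Q l t v n h α ρ k + ε * (h + q) * Real.log 2 + k * B := by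
  have hl : 0 < Real.log 2 := Real.log_pos (by norm_num)
  have hp' : Pl h q (id i) α ρ := ⟨hp.ma, hp.mr, hp.a0, (hp.ma hi).trans hp.ah, (hp.mr hi).trans hp.rq⟩
  have h1 := bud hN H hV monotone_id rfl (M := i) hp'
  simp only [id] at h1
  have h2 : ∑ j ∈ range i, -er ε B (α j) (α (j + 1)) (ρ j) (ρ (j + 1)) ≤
      ∑ j ∈ range i, dft N β Q l t v n (α j) (ρ j) (α (j + 1))
        (E (α (j + 1)) (ρ (j + 1)) - E (α j) (ρ j)) :=
    Finset.sum_le_sum fun j hj => dft_ge H (hp.ma (Nat.le_succ j))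
      ((hp.ma (lt_of_lt_of_le (Finset.mem_range.1 hj) hi)).trans hp.ah) (hp.mr (Nat.le_succ j))
      ((hp.mr (lt_of_lt_of_le (Finset.mem_range.1 hj) hi)).trans hp.rq)
  have h3 : ∑ j ∈ range i, -er ε B (α j) (α (j + 1)) (ρ j) (ρ (j + 1)) =
      -(ε * (((α i : ℝ) - α 0) + ((ρ i : ℝ) - ρ 0)) * Real.log 2 + i * B) := by
    rw [← Finset.sum_range_sub (fun j => ((α j : ℕ) : ℝ)) i,
      ← Finset.sum_range_sub (fun j => ((ρ j : ℕ) : ℝ)) i, Finset.sum_neg_distrib,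
      ← Finset.sum_add_distrib, Finset.mul_sum, Finset.sum_mul]
    congr 1
    unfold er
    rw [Finset.sum_add_distrib, Finset.sum_const, card_range, nsmul_eq_mul]
  rw [h3, hp.a0] at h2
  have h4 := DEL_mono (d := d) (ε := ε) (B := B) hN Q l t v n h α ρ hi
  have h5 : (α i : ℝ) ≤ h := by exact_mod_cast (hp.ma hi).trans hp.ah
  have h6 : (ρ i : ℝ) ≤ q := by exact_mod_cast (hp.mr hi).trans hp.rq
  have h7 : (0 : ℝ) ≤ ρ 0 := Nat.cast_nonneg _
  have h8 : ε * (((α i : ℝ) - (0 : ℕ)) + ((ρ i : ℝ) - ρ 0)) * Real.log 2 ≤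
      ε * (h + q) * Real.log 2 := by
    refine mul_le_mul_of_nonneg_right (mul_le_mul_of_nonneg_left ?_ hε) hl.le
    push_cast
    linarith
  have h9 : (i : ℝ) * B ≤ k * B := mul_le_mul_of_nonneg_right (by exact_mod_cast hi) hB
  linarith

/-- END7K : if `q - ρ i ≤ δ (h - α i)` then `h - α i` is small -/
theorem end7 (hN : 0 ≤ N) (hε : 0 ≤ ε) (hB : 0 ≤ B) (H : Incr N lam β δ ε Λ B Q l t v n h q E)
    (hV : Vc N lam β d Q l t v n h q) {α ρ : ℕ → ℕ} {k i : ℕ} (hp : Pl h q k α ρ) (hi : i ≤ k) :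
    δ * ((h : ℝ) - α i) < (q : ℝ) - ρ i ∨
      δ * ((h : ℝ) - α i) * Real.log 2 ≤ DEL N d ε B Q l t v n h α ρ k + ε * (h + q) * Real.log 2 +
        ε * h * Real.log 2 + (k + 1) * B := by
  rcases lt_or_ge (δ * ((h : ℝ) - α i)) ((q : ℝ) - ρ i) with h1 | h1
  · exact Or.inl h1
  · right
    have h2 := H.tail (α i) (ρ i) ((hp.ma hi).trans hp.ah) ((hp.mr hi).trans hp.rq) h1
    have h3 := one_def hN hε hB H hV hp hi
    unfold dft at h3
    linarith

/-- the digits of the time in the window `[i, end]` -/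
theorem hc_end_le (Q : Law Ω) (l : Ω → Ln) (t v : Ω → ℝ) (n r : ℕ) {a h : ℕ} (ha : a ≤ h) :
    hc Q (fun ω => fl1 h (t ω)) (fun ω => (tb n (l ω), st t v a r ω)) ≤
      ((h : ℝ) - a) * Real.log 2 := by
  have h1 := hc_fl1_digits_le Q ha t (fun ω => tb n (l ω))
  have h2 : hc Q (fun ω => fl1 h (t ω)) (fun ω => (tb n (l ω), st t v a r ω)) ≤
      hc Q (fun ω => fl1 h (t ω)) (fun ω => (fl1 a (t ω), tb n (l ω))) := by
    refine hc_mono_right Q _ ?_
    intro ω ω' _ _ e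
    unfold st at e
    simp only [Prod.mk.injEq] at e
    exact Prod.ext e.2.1 e.1
  rw [Nat.cast_sub ha] at h1
  exact h2.trans h1

/-- LIP for the window `[i, end]` : `κ = lam (1 - θ) / 2` where `θ (q - ρ i)` digits of `v` are used -/
theorem lip_end (hN : 0 ≤ N) (hε : 0 ≤ ε) (hB : 0 ≤ B) (hβ : 0 ≤ β)
    (H : Incr N lam β δ ε Λ B Q l t v n h q E)
    (hV : Vc N lam β d Q l t v n h q) {α ρ : ℕ → ℕ} {k i : ℕ} (hp : Pl h q k α ρ) (hi : i ≤ k)
    {g : ℝ} (hL : E h q ≤ E (α i) (ρ i) + 2 * ((h : ℝ) - α i) * Real.log 2 - g +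
      er ε B (α i) h (ρ i) q) :
    g ≤ DEL N d ε B Q l t v n h α ρ k + 2 * ((h : ℝ) - α i) * Real.log 2 +
      2 * (ε * (h + q) * Real.log 2) + ε * h * Real.log 2 + (k + 2) * B := by
  have hl : 0 < Real.log 2 := Real.log_pos (by norm_num)
  have h3 := one_def hN hε hB H hV hp hi
  have h4 := H.fin
  have hah : α i ≤ h := (hp.ma hi).trans hp.ah
  have h5 := hc_end_le Q l t v n (ρ i) hah
  have h6 := mul_nonneg hN (sub_nonneg.2 h5)
  have hah' : (α i : ℝ) ≤ h := by exact_mod_cast hah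
  have h7 : 0 ≤ β * ((h : ℝ) - α i) * Real.log 2 :=
    mul_nonneg (mul_nonneg hβ (by linarith)) hl.le
  have h8 : er ε B (α i) h (ρ i) q ≤ ε * (h + q) * Real.log 2 + B := by
    unfold er
    have : ε * (((h : ℝ) - α i) + ((q : ℝ) - ρ i)) * Real.log 2 ≤ ε * (h + q) * Real.log 2 := by
      refine mul_le_mul_of_nonneg_right (mul_le_mul_of_nonneg_left ?_ hε) hl.le
      have := Nat.cast_nonneg (α := ℝ) (α i)
      have := Nat.cast_nonneg (α := ℝ) (ρ i)
      linarith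
    linarith
  unfold dft at h3
  linarith

/-- **TAIL** : at the exit of the path both `h - α k` and `q - ρ k` are at most `y`.  `i` is the last
thin step, `m` the length of a block. -/
theorem tail_inc (hN : 0 ≤ N) (hε : 0 ≤ ε) (hB : 0 ≤ B) (hβ : 0 ≤ β) (hδ : 0 < δ) (hδ1 : δ ≤ 1)
    (H : Incr N lam β δ ε Λ B Q l t v n h q E)
    (hV : Vc N lam β d Q l t v n h q) {α ρ : ℕ → ℕ} {k i m : ℕ} (hp : Pl h q k α ρ) (hi : i ≤ k)
    {x₂ x y κ : ℝ} (hκ : 0 < κ) (hx₂ : 0 ≤ x₂)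
    (hexit : (h : ℝ) - α k ≤ x₂ ∨ (q : ℝ) - ρ k ≤ x₂) (him : α k ≤ α i + m)
    (hL : (q : ℝ) - ρ i ≤ x ∨ E h q ≤ E (α i) (ρ i) + 2 * ((h : ℝ) - α i) * Real.log 2 -
      κ * ((q : ℝ) - ρ i) * Real.log 2 + er ε B (α i) h (ρ i) q)
    (y1 : DEL N d ε B Q l t v n h α ρ k + ε * (h + q) * Real.log 2 + ε * h * Real.log 2 +
      (k + 1) * B ≤ δ * y * Real.log 2) (y2 : x₂ ≤ δ * y)
    (y3 : DEL N d ε B Q l t v n h α ρ k + 2 * (x₂ + m) * Real.log 2 +
      2 * (ε * (h + q) * Real.log 2) + ε * h * Real.log 2 + (k + 2) * B ≤ κ * y * Real.log 2)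
    (y4 : x ≤ y) :
    (h : ℝ) - α k ≤ y ∧ (q : ℝ) - ρ k ≤ y := by
  have hl : 0 < Real.log 2 := Real.log_pos (by norm_num)
  have hy0 : 0 ≤ y := by
    by_contra hy
    rw [not_le] at hy
    have := mul_neg_of_pos_of_neg hδ hy
    linarith
  have hdy : δ * y ≤ y := by nlinarith
  rcases hexit with hx | hx
  · refine ⟨hx.trans (y2.trans hdy), ?_⟩
    have h1 : (ρ i : ℝ) ≤ ρ k := by exact_mod_cast hp.mr hi
    have h3 : (α k : ℝ) ≤ α i + m := by exact_mod_cast him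
    rcases hL with h4 | h4
    · linarith
    · have h5 := lip_end hN hε hB hβ H hV hp hi h4
      have h6 : 2 * ((h : ℝ) - α i) * Real.log 2 ≤ 2 * (x₂ + m) * Real.log 2 :=
        mul_le_mul_of_nonneg_right (by linarith) hl.le
      have h8 : (κ * Real.log 2) * ((q : ℝ) - ρ i) ≤ (κ * Real.log 2) * y := by linarith
      have h9 := le_of_mul_le_mul_left h8 (mul_pos hκ hl)
      linarith
  · refine ⟨?_, hx.trans (y2.trans hdy)⟩
    rcases end7 hN hε hB H hV hp le_rfl with h1 | h1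
    · have h2 : δ * ((h : ℝ) - α k) ≤ δ * y := by linarith
      exact le_of_mul_le_mul_left h2 hδ
    · have h2 : (δ * Real.log 2) * ((h : ℝ) - α k) ≤ (δ * Real.log 2) * y := by linarith
      exact le_of_mul_le_mul_left h2 (mul_pos hδ hl)

/-- **START** : `q - ρ 0` is large -/
theorem start_inc (hN : 0 ≤ N) (hε : 0 ≤ ε) (hB : 0 ≤ B) (H : Incr N lam β δ ε Λ B Q l t v n h q E)
    (hV : Vc N lam β d Q l t v n h q) {α ρ : ℕ → ℕ} {k : ℕ} (hp : Pl h q k α ρ)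
    (hlt : DEL N d ε B Q l t v n h α ρ k + ε * (h + q) * Real.log 2 + ε * h * Real.log 2 +
      (k + 1) * B < δ * h * Real.log 2) : δ * h < (q : ℝ) - ρ 0 := by
  rcases end7 hN hε hB H hV hp (Nat.zero_le k) with h1 | h1
  · rw [hp.a0] at h1
    simpa using h1
  · rw [hp.a0] at h1
    simp only [Nat.cast_zero, sub_zero] at h1
    linarith

end Vale.Agent.P127.U.Bud
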