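import Vale.Agent.P127.U.H824.IncUse
import Vale.Agent.P127.U.H205.ActI

/-!
# P127 / U / H824 : the total of the single steps of a path (helper824)

* `end_ge` : the defect of the last window `[k, end]` is almost nonnegative.
* `bud_path` : sum of the single steps; `hT_of` : the hypothesis `hT` of `ActI.ct_le`, `ActI.ct_sum`.
* `bud_win` : sum of the defects of the windows of a partition of the path, without the last window.
-/

set_option autoImplicit false

namespace Vale.Agent.P127.U.Bud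

open Finset Vale.Agent.P127 Vale.Agent.P127.Stk Vale.Agent.P127.U Vale.Agent.P127.U.Inc
  Vale.Agent.P127.U.Mic Vale.Agent.P127.U.ActI

variable {Ω : Type} [Fintype Ω] {N lam β δ ε Λ B d : ℝ} {Q : Law Ω} {l : Ω → Ln} {t v : Ω → ℝ}
  {n h q : ℕ} {E : ℕ → ℕ → ℝ}

/-- the defect of the last window is almost nonnegative -/
theorem end_ge (hε : 0 ≤ ε) (H : Incr N lam β δ ε Λ B Q l t v n h q E) {a r : ℕ} (ha : a ≤ h)
    (hr : r ≤ q) : -(ε * (h + q) * Real.log 2 + ε * h * Real.log 2 + 2 * B) ≤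
      dft N β Q l t v n a r h (valE lam Q l t v n h q - E a r) := by
  have hl : 0 < Real.log 2 := Real.log_pos (by norm_num)
  have h1 := H.win a h r q ha le_rfl hr le_rfl
  have h2 := H.fin
  have h8 : er ε B a h r q ≤ ε * (h + q) * Real.log 2 + B := by
    unfold er
    have : ε * (((h : ℝ) - a) + ((q : ℝ) - r)) * Real.log 2 ≤ ε * (h + q) * Real.log 2 := by
      refine mul_le_mul_of_nonneg_right (mul_le_mul_of_nonneg_left ?_ hε) hl.le
      have := Nat.cast_nonneg (α := ℝ) a
      have := Nat.cast_nonneg (α := ℝ) r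
      linarith
    linarith
  unfold dft
  linarith

/-- budget of a path without the last window -/
noncomputable def DELp (N d ε B : ℝ) (Q : Law Ω) (l : Ω → Ln) (t v : Ω → ℝ) (n h q : ℕ)
    (α ρ : ℕ → ℕ) (k : ℕ) : ℝ :=
  DEL N d ε B Q l t v n h α ρ k + ε * (h + q) * Real.log 2 + ε * h * Real.log 2 + 2 * B

/-- **sum of the defects of the windows of a partition of the path** -/
theorem bud_win (hN : 0 ≤ N) (hε : 0 ≤ ε) (H : Incr N lam β δ ε Λ B Q l t v n h q E)
    (hV : Vc N lam β d Q l t v n h q)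
    {α ρ : ℕ → ℕ} {sg : ℕ → ℕ} (hsg : Monotone sg) (h0 : sg 0 = 0) {M : ℕ}
    (hp : Pl h q (sg M) α ρ) :
    ∑ k ∈ range M, dft N β Q l t v n (α (sg k)) (ρ (sg k)) (α (sg (k + 1)))
        (E (α (sg (k + 1))) (ρ (sg (k + 1))) - E (α (sg k)) (ρ (sg k))) ≤
      DELp N d ε B Q l t v n h q α ρ (sg M) := by
  have h1 := bud hN H hV hsg h0 hp
  have h2 := end_ge hε H hp.ah hp.rq
  unfold DELp
  linarith

/-- **sum of the single steps** -/
theorem bud_path (hN : 0 ≤ N) (hε : 0 ≤ ε) (H : Incr N lam β δ ε Λ B Q l t v n h q E)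
    (hV : Vc N lam β d Q l t v n h q) {α ρ : ℕ → ℕ} {k : ℕ} (hp : Pl h q k α ρ) :
    ∑ j ∈ range k, (β * ((α (j + 1) : ℝ) - α j) * Real.log 2 + N * (((α (j + 1) : ℝ) - α j) * Real.log 2 -
      hc Q (fun ω => fl1 (α (j + 1)) (t ω)) (fun ω => (tb n (l ω), st t v (α j) (ρ j) ω)))) -
        DELp N d ε B Q l t v n h q α ρ k ≤ E (α k) (ρ k) - E (α 0) (ρ 0) := by
  have h1 := bud_win hN hε H hV (sg := id) monotone_id rfl (M := k) hp
  simp only [id] at h1
  have h2 : ∑ j ∈ range k, dft N β Q l t v n (α j) (ρ j) (α (j + 1))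
      (E (α (j + 1)) (ρ (j + 1)) - E (α j) (ρ j)) =
      ∑ j ∈ range k, (β * ((α (j + 1) : ℝ) - α j) * Real.log 2 +
        N * (((α (j + 1) : ℝ) - α j) * Real.log 2 -
          hc Q (fun ω => fl1 (α (j + 1)) (t ω)) (fun ω => (tb n (l ω), st t v (α j) (ρ j) ω)))) -
      (E (α k) (ρ k) - E (α 0) (ρ 0)) := by
    rw [← Finset.sum_range_sub (fun j => E (α j) (ρ j)) k, ← Finset.sum_sub_distrib]
    refine Finset.sum_congr rfl fun j _ => ?_
    unfold dft
    ring
  linarith

/-- **the hypothesis `hT` of `ActI`** -/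
theorem hT_of (hN : 0 ≤ N) (hε : 0 ≤ ε) (H : Incr N lam β δ ε Λ B Q l t v n h q E)
    (hV : Vc N lam β d Q l t v n h q) {α ρ : ℕ → ℕ} {m k : ℕ} (hb : Blks α ρ m k)
    (hp : Pl h q k α ρ) :
    ∑ i ∈ (range k).filter (fun i => α i < α (i + 1)), (β * m * Real.log 2 +
        N * (m * Real.log 2 - Stk.hc Q (fun ω => fl1 (α i + m) (t ω))
          (fun ω => (tb n (l ω), st t v (α i) (ρ i) ω)))) -
      DELp N d ε B Q l t v n h q α ρ k ≤ E (α k) (ρ k) - E (α 0) (ρ 0) := by
  have h1 := bud_path hN hε H hV hp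
  have h2 : ∑ i ∈ (range k).filter (fun i => α i < α (i + 1)), (β * m * Real.log 2 +
        N * (m * Real.log 2 - Stk.hc Q (fun ω => fl1 (α i + m) (t ω))
          (fun ω => (tb n (l ω), st t v (α i) (ρ i) ω)))) =
      ∑ j ∈ range k, (β * ((α (j + 1) : ℝ) - α j) * Real.log 2 +
        N * (((α (j + 1) : ℝ) - α j) * Real.log 2 -
          hc Q (fun ω => fl1 (α (j + 1)) (t ω)) (fun ω => (tb n (l ω), st t v (α j) (ρ j) ω)))) := by
    rw [Finset.sum_filter]
    refine Finset.sum_congr rfl fun i hi => ?_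
    rcases hb i (Finset.mem_range.1 hi) with ⟨e1, -⟩ | ⟨e1, -⟩
    · have e3 : (α i + m) = α (i + 1) := e1.symm
      have e2 : ((α (i + 1) : ℝ) - α i) = m := by
        rw [e1]
        push_cast
        ring
      split_ifs with h3
      · rw [e2, e3]
      · have hm : m = 0 := by omega
        have e4 : hc Q (fun ω => fl1 (α (i + 1)) (t ω)) (fun ω => (tb n (l ω), st t v (α i) (ρ i) ω)) = 0 := by
          refine hc_zero Q ?_
          intro ω ω' _ _ e
          unfold st at e
          simp only [Prod.mk.injEq] at e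
          show fl1 (α (i + 1)) (t ω) = fl1 (α (i + 1)) (t ω')
          rw [e1, hm]
          exact e.2.1
        rw [e4, e2, hm]
        simp
    · have e4 : hc Q (fun ω => fl1 (α (i + 1)) (t ω)) (fun ω => (tb n (l ω), st t v (α i) (ρ i) ω)) = 0 := by
        refine hc_zero Q ?_
        intro ω ω' _ _ e
        unfold st at e
        simp only [Prod.mk.injEq] at e
        show fl1 (α (i + 1)) (t ω) = fl1 (α (i + 1)) (t ω')
        rw [e1]
        exact e.2.1
      rw [if_neg (by omega), e4, e1]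
      simp
  rw [h2]
  exact h1

end Vale.Agent.P127.U.Bud
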