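import Vale.Agent.P127.U.Cell

/-!
# P127 / U / H824 : the budget of the defects along a deterministic path (helper824)

One finite law `P`, side variable `l` (the line), `t`, `v` real variables, `α i`, `ρ i` the numbers of
digits of `t`, `v` known after `i` steps, `T i = (t_(α i), v_(ρ i))`.

* `budget` : `H(t_h | l, T_0) ≤ ∑ H(t_window | l, T_start) + ∑ H(v_(ρ (i+1)) | l, T_i)` (the last window
  ends at `h` and reveals no digit of `v`).
* `sum_def` : the sum of the defects of the windows of a partition of the path.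
-/

set_option autoImplicit false

namespace Vale.Agent.P127.U.Bud

open Finset Vale.Agent.P127 Vale.Agent.P127.Stk Vale.Agent.P127.U.Cell

variable {Ω : Type} [Fintype Ω] {A : Type*}

/-- the digits known at the point `p` of the path (= `Inc.st t v p.1 p.2`) -/
noncomputable def TT (t v : Ω → ℝ) (p : ℕ × ℕ) (ω : Ω) : ℤ × ℤ := (fl1 p.1 (t ω), fl1 p.2 (v ω))

variable (P : Law Ω) (l : Ω → A) (t v : Ω → ℝ) {α : ℕ → ℕ} (ρ : ℕ → ℕ)

/-- the digits of `v` in one window, given the digits of `t` of the window -/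
theorem v_window (hα : Monotone α) (i k : ℕ) :
    hc P (fun ω => fl1 (ρ (i + k)) (v ω)) (fun ω => (fl1 (α (i + k)) (t ω), l ω, TT t v (α i, ρ i) ω)) ≤
      ∑ j ∈ range k, hc P (fun ω => fl1 (ρ (i + j + 1)) (v ω)) (fun ω => (l ω, TT t v (α (i + j), ρ (i + j)) ω)) := by
  have key : ∀ j, j ≤ k →
      hc P (fun ω => fl1 (ρ (i + j)) (v ω)) (fun ω => (fl1 (α (i + k)) (t ω), l ω, TT t v (α i, ρ i) ω)) ≤
      ∑ j ∈ range j, hc P (fun ω => fl1 (ρ (i + j + 1)) (v ω))
        (fun ω => (l ω, TT t v (α (i + j), ρ (i + j)) ω)) := by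
    intro j
    induction j with
    | zero =>
      intro _
      rw [Finset.sum_range_zero]
      refine le_of_eq (hc_zero P ?_)
      intro ω ω' _ _ e
      simp only [Prod.mk.injEq] at e
      exact congrArg Prod.snd e.2.2
    | succ j ih =>
      intro hj
      rw [Finset.sum_range_succ]
      have h1 := hc_le_add P (fun ω => fl1 (ρ (i + (j + 1))) (v ω)) (fun ω => fl1 (ρ (i + j)) (v ω))
        (fun ω => (fl1 (α (i + k)) (t ω), l ω, TT t v (α i, ρ i) ω))
      have h2 : hc P (fun ω => fl1 (ρ (i + (j + 1))) (v ω))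
          (fun ω => (fl1 (ρ (i + j)) (v ω), fl1 (α (i + k)) (t ω), l ω, TT t v (α i, ρ i) ω)) ≤
          hc P (fun ω => fl1 (ρ (i + j + 1)) (v ω))
            (fun ω => (l ω, TT t v (α (i + j), ρ (i + j)) ω)) := by
        refine hc_mono_right P _ ?_
        intro ω ω' _ _ e
        simp only [Prod.mk.injEq] at e
        refine Prod.ext e.2.2.1 (Prod.ext ?_ e.1)
        exact Pth.fl1_of_fl1 (hα (by omega)) e.2.1
      linarith [ih (by omega)]
  exact key k le_rfl

/-- one window -/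
theorem win_le (hα : Monotone α) {i i' : ℕ} (hi : i ≤ i') :
    hc P (TT t v (α i', ρ i')) (fun ω => (l ω, TT t v (α i, ρ i) ω)) ≤
      hc P (fun ω => fl1 (α i') (t ω)) (fun ω => (l ω, TT t v (α i, ρ i) ω)) +
      ∑ j ∈ Ico i i', hc P (fun ω => fl1 (ρ (j + 1)) (v ω)) (fun ω => (l ω, TT t v (α j, ρ j) ω)) := by
  obtain ⟨k, rfl⟩ := Nat.exists_eq_add_of_le hi
  have h1 := hc_pair P (fun ω => fl1 (α (i + k)) (t ω)) (fun ω => fl1 (ρ (i + k)) (v ω))
    (fun ω => (l ω, TT t v (α i, ρ i) ω))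
  have h2 := v_window P l t v ρ hα i k
  have h3 : ∑ j ∈ Ico i (i + k), hc P (fun ω => fl1 (ρ (j + 1)) (v ω))
      (fun ω => (l ω, TT t v (α j, ρ j) ω)) = ∑ j ∈ range k, hc P (fun ω => fl1 (ρ (i + j + 1)) (v ω))
        (fun ω => (l ω, TT t v (α (i + j), ρ (i + j)) ω)) := by
    rw [Finset.sum_Ico_eq_sum_range]
    simp
  rw [h3]
  show hc P (fun ω => (fl1 (α (i + k)) (t ω), fl1 (ρ (i + k)) (v ω))) _ ≤ _
  rw [h1]
  linarith

/-- **budget** : entropy of the time against the windows of a partition of the path -/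
theorem budget (hα : Monotone α) {sg : ℕ → ℕ} (hsg : Monotone sg) (M h : ℕ) :
    hc P (fun ω => fl1 h (t ω)) (fun ω => (l ω, TT t v (α (sg 0), ρ (sg 0)) ω)) ≤
      (∑ k ∈ range M, hc P (fun ω => fl1 (α (sg (k + 1))) (t ω))
        (fun ω => (l ω, TT t v (α (sg k), ρ (sg k)) ω))) +
      (∑ j ∈ Ico (sg 0) (sg M), hc P (fun ω => fl1 (ρ (j + 1)) (v ω))
        (fun ω => (l ω, TT t v (α j, ρ j) ω))) +
      hc P (fun ω => fl1 h (t ω)) (fun ω => (l ω, TT t v (α (sg M), ρ (sg M)) ω)) := by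
  induction M with
  | zero => simp
  | succ M ih =>
    rw [Finset.sum_range_succ, ← Finset.sum_Ico_consecutive _ (hsg (Nat.zero_le M)) (hsg (Nat.le_succ M))]
    have h1 := hc_le_add P (fun ω => fl1 h (t ω)) (TT t v (α (sg (M + 1)), ρ (sg (M + 1))))
      (fun ω => (l ω, TT t v (α (sg M), ρ (sg M)) ω))
    have h2 := win_le P l t v ρ hα (hsg (Nat.le_succ M))
    have h3 : hc P (fun ω => fl1 h (t ω)) (fun ω => (TT t v (α (sg (M + 1)), ρ (sg (M + 1))) ω,
        l ω, TT t v (α (sg M), ρ (sg M)) ω)) ≤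
        hc P (fun ω => fl1 h (t ω)) (fun ω => (l ω, TT t v (α (sg (M + 1)), ρ (sg (M + 1))) ω)) := by
      refine hc_mono_right P _ ?_
      intro ω ω' _ _ e
      simp only [Prod.mk.injEq] at e
      exact Prod.ext e.2.1 e.1
    linarith

/-- **sum of the defects** of the windows of a partition of the path.  `e k` value at the start of the
window `k`, `E` value at the end; everything in natural logarithms. -/
theorem sum_def (hα : Monotone α) {sg : ℕ → ℕ} (hsg : Monotone sg) (M h : ℕ)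
    {N β Δ E : ℝ} (e : ℕ → ℝ) (hN : 0 ≤ N)
    (htel : β * (h * Real.log 2) + N * (h * Real.log 2 - hc P (fun ω => fl1 h (t ω)) l) - Δ ≤ E - e 0) :
    (∑ k ∈ range M, (β * (((α (sg (k + 1)) : ℝ) - α (sg k)) * Real.log 2) +
        N * (((α (sg (k + 1)) : ℝ) - α (sg k)) * Real.log 2 -
          hc P (fun ω => fl1 (α (sg (k + 1))) (t ω)) (fun ω => (l ω, TT t v (α (sg k), ρ (sg k)) ω))) -
        (e (k + 1) - e k))) +
      (β * (((h : ℝ) - α (sg M)) * Real.log 2) + N * (((h : ℝ) - α (sg M)) * Real.log 2 -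
          hc P (fun ω => fl1 h (t ω)) (fun ω => (l ω, TT t v (α (sg M), ρ (sg M)) ω))) - (E - e M)) ≤
      Δ + N * (hc P (TT t v (α (sg 0), ρ (sg 0))) l + ∑ j ∈ Ico (sg 0) (sg M),
        hc P (fun ω => fl1 (ρ (j + 1)) (v ω)) (fun ω => (l ω, TT t v (α j, ρ j) ω))) -
      (β + N) * (α (sg 0) * Real.log 2) := by
  have h1 := budget P l t v ρ hα hsg M h
  have h2 := hc_le_add P (fun ω => fl1 h (t ω)) (TT t v (α (sg 0), ρ (sg 0))) l
  have h3 : hc P (fun ω => fl1 h (t ω)) (fun ω => (TT t v (α (sg 0), ρ (sg 0)) ω, l ω)) ≤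
      hc P (fun ω => fl1 h (t ω)) (fun ω => (l ω, TT t v (α (sg 0), ρ (sg 0)) ω)) :=
    hc_mono_right P _ fun ω ω' _ _ e => by
      simp only [Prod.mk.injEq] at e
      exact Prod.ext e.2 e.1
  have h4 : ∑ k ∈ range M, (β * (((α (sg (k + 1)) : ℝ) - α (sg k)) * Real.log 2) +
        N * (((α (sg (k + 1)) : ℝ) - α (sg k)) * Real.log 2 -
          hc P (fun ω => fl1 (α (sg (k + 1))) (t ω)) (fun ω => (l ω, TT t v (α (sg k), ρ (sg k)) ω))) -
        (e (k + 1) - e k)) =
      (β + N) * (((α (sg M) : ℝ) - α (sg 0)) * Real.log 2) -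
        N * (∑ k ∈ range M, hc P (fun ω => fl1 (α (sg (k + 1))) (t ω))
          (fun ω => (l ω, TT t v (α (sg k), ρ (sg k)) ω))) - (e M - e 0) := by
    rw [← Finset.sum_range_sub e M, ← Finset.sum_range_sub (fun k => ((α (sg k) : ℕ) : ℝ)) M,
      Finset.sum_mul, Finset.mul_sum, Finset.mul_sum, ← Finset.sum_sub_distrib,
      ← Finset.sum_sub_distrib]
    refine Finset.sum_congr rfl fun k _ => ?_
    ring
  rw [h4]
  have h5 := mul_le_mul_of_nonneg_left (h2.trans (add_le_add le_rfl (h3.trans h1))) hN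
  nlinarith

end Vale.Agent.P127.U.Bud
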