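import Vale.Agent.P127.U.H824.PathCut
import Vale.Agent.P127.U.H824.IncUse

/-!
# P127 / U / H824 : LIP for the last window, from a thin step (helper824)

* `lip_alt` : `Incr.lip` at a thin index of the path of rule R*, any target levels: either the gain
  `lam / 2`, or the refund of the information of the shape with the price of a collision.
* `tail_hL` : the hypothesis `hL` of `tail_inc`, with `κ = lam / 8`.
-/

set_option autoImplicit false

namespace Vale.Agent.P127.U.Bud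

open Finset Vale.Agent.P127 Vale.Agent.P127.Stk Vale.Agent.P127.U Vale.Agent.P127.U.Inc
  Vale.Agent.P127.U.Mic

variable {Ω : Type} [Fintype Ω] {N lam β δ ε Λ B d : ℝ} {P Q : Law Ω} {l : Ω → Ln} {t v : Ω → ℝ}
  {n h q : ℕ} {E₀ : ℕ → ℕ → ℝ} {e : PathS.Expl Ω ((Fin 2 → ℤ) × (Fin 2 → ℤ)) ℤ ℤ} {E : List PathS.Lt}
  {p : ℝ} {m : ℕ}

/-- **LIP at a thin index** -/
theorem lip_alt (H : Incr N lam β δ ε Λ B Q l t v n h q E₀) (hlam : 0 ≤ lam) (hΛ : 0 ≤ Λ)
    (hc : PathS.Cnd e P Q E p) (hLv : e.Lv = fun ω => tb n (l ω))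
    (htt : ∀ a, e.tt a = fun ω => fl1 (m * a) (t ω)) (hvv : ∀ r, e.vv r = fun ω => fl1 (m * r) (v ω))
    {i : ℕ} (hi : i < e.A + e.R) (ht : e.thin E i) {j : ℕ} (hj : 1 ≤ j) (hR : e.ri E i + j ≤ e.R)
    (h0 : 0 < e.thr) {a' r' : ℕ} (ha : m * e.ai E i ≤ a') (hah : a' ≤ h)
    (hr : m * (e.ri E i + j) ≤ r') (hrq : r' ≤ q) :
    (E₀ a' r' ≤ E₀ (m * e.ai E i) (m * e.ri E i) + 2 * ((a' : ℝ) - (m * e.ai E i : ℕ)) * Real.log 2 -
      lam / 2 * ((r' : ℝ) - (m * e.ri E i : ℕ) - (m * j : ℕ)) * Real.log 2 +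
        er ε B (m * e.ai E i) a' (m * e.ri E i) r') ∨
    ∃ I : ℝ, 0 ≤ I ∧
      E₀ a' r' ≤ E₀ (m * e.ai E i) (m * e.ri E i) + 2 * ((a' : ℝ) - (m * e.ai E i : ℕ)) * Real.log 2 -
        Λ * I + er ε B (m * e.ai E i) a' (m * e.ri E i) r' ∧
      j * Real.log (1 / e.thr) ≤ 12 * (Real.log (1 / p) + I) + 15 := by
  have hl : 0 < Real.log 2 := Real.log_pos (by norm_num)
  have hmr : m * e.ri E i + m * j = m * (e.ri E i + j) := by ring
  have hr1 : m * e.ri E i ≤ r' := by omega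
  obtain ⟨Ω', _, Q', π, σ, hπ, hlip⟩ := H.lip (m * e.ai E i) a' (m * e.ri E i) r' (m * j) ha hah hr1 hrq
    (by omega)
  set a := m * e.ai E i with haa
  set r := m * e.ri E i with hrr
  set κ := colp Q' (fun ω => fl1 (r + m * j) (v (π ω)))
    (fun ω => (tb n (l (π ω)), st t v a r (π ω), σ ω)) with hκ
  set I := mi Q' (fun ω => st t v a' r' (π ω)) σ
    (fun ω => (tb n (l (π ω)), st t v a r (π ω))) with hI
  have hI0 : 0 ≤ I := mi_nonneg Q' _ _ _
  have hrj : (r' : ℝ) - (r : ℝ) - (m * j : ℕ) ≥ 0 := by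
    have h1 : ((r + m * j : ℕ) : ℝ) ≤ r' := by
      rw [hmr]
      exact_mod_cast hr
    push_cast at h1 ⊢
    linarith
  have hKl : ∀ ω, e.K (e.ai E i) (e.ri E i) ω = (tb n (l ω), fl1 a (t ω), fl1 r (v ω)) := by
    intro ω
    show (e.Lv ω, e.tt (e.ai E i) ω, e.vv (e.ri E i) ω) = _
    rw [hLv, htt, hvv]
  have hX : ∀ ω, e.vv (e.ri E i + j) ω = fl1 (r + m * j) (v ω) := by
    intro ω
    rw [hvv, hmr]
  have hcoll : Path.coll Q' (fun ω => e.vv (e.ri E i + j) (π ω))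
      (fun ω => (e.K (e.ai E i) (e.ri E i) (π ω), σ ω)) = κ := by
    have e1 : Path.coll Q' (fun ω => e.vv (e.ri E i + j) (π ω))
      (fun ω => (e.K (e.ai E i) (e.ri E i) (π ω), σ ω)) = colp Q' (fun ω => e.vv (e.ri E i + j) (π ω))
      (fun ω => (e.K (e.ai E i) (e.ri E i) (π ω), σ ω)) := rfl
    rw [e1, hκ]
    simp only [hX]
    refine colp_congr Q' (fun _ _ _ _ h' => ?_) (fun _ _ _ _ h' => ?_) (fun _ _ _ _ h' => ?_)
      (fun _ _ _ _ h' => ?_)
    · exact congrArg Prod.fst h'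
    · exact congrArg Prod.fst h'
    · simp only [hKl, st, Prod.mk.injEq] at h' ⊢
      tauto
    · simp only [hKl, st, Prod.mk.injEq] at h' ⊢
      tauto
  have hmi : mi Q' (fun ω => e.vv (e.ri E i + j) (π ω)) σ
        (fun ω => e.K (e.ai E i) (e.ri E i) (π ω)) ≤ I := by
    have e1 : mi Q' (fun ω => e.vv (e.ri E i + j) (π ω)) σ
        (fun ω => e.K (e.ai E i) (e.ri E i) (π ω)) =
        mi Q' (fun ω => e.vv (e.ri E i + j) (π ω)) σ
        (fun ω => (tb n (l (π ω)), st t v a r (π ω))) := by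
      refine mi_congr_cond Q' _ _ ?_ ?_
      · intro ω ω' _ _ h'
        simp only [hKl, Prod.mk.injEq] at h' ⊢
        unfold st at h'
        simp only [Prod.mk.injEq] at h'
        tauto
      · intro ω ω' _ _ h'
        simp only [hKl, Prod.mk.injEq] at h' ⊢
        unfold st
        simp only [Prod.mk.injEq]
        tauto
    rw [e1, hI]
    refine mi_mono_left Q' σ ?_
    intro ω ω' _ _ h'
    simp only [Prod.mk.injEq] at h'
    obtain ⟨h1, h2⟩ := h'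
    unfold st at h1
    simp only [Prod.mk.injEq] at h1
    show e.vv (e.ri E i + j) (π ω) = e.vv (e.ri E i + j) (π ω')
    rw [hX, hX, hmr]
    exact Cell.Pth.fl1_of_fl1 hr h1.2
  rcases hc.thin_alt hπ σ hi ht hj hR h0 with h1 | h1
  · left
    rw [hcoll] at h1
    have h2 : (1 : ℝ) / 2 ≤ max 0 (1 - 3 * κ) := le_trans (by linarith) (le_max_right _ _)
    have h3 : lam * ((r' : ℝ) - r - (m * j : ℕ)) * Real.log 2 * (1 / 2) ≤
        lam * ((r' : ℝ) - r - (m * j : ℕ)) * Real.log 2 * max 0 (1 - 3 * κ) :=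
      mul_le_mul_of_nonneg_left h2 (mul_nonneg (mul_nonneg hlam hrj) hl.le)
    have h4 := mul_nonneg hΛ hI0
    linarith
  · right
    refine ⟨I, hI0, ?_, ?_⟩
    · have h3 : 0 ≤ lam * ((r' : ℝ) - r - (m * j : ℕ)) * Real.log 2 * max 0 (1 - 3 * κ) :=
        mul_nonneg (mul_nonneg (mul_nonneg hlam hrj) hl.le) (le_max_left _ _)
      linarith
    · linarith

/-- **hypothesis `hL` of `tail_inc`** for a thin index `i` of the path; `i'` the index in the path
`α, ρ` -/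
theorem tail_hL (hN : 0 ≤ N) (hε : 0 ≤ ε) (hB : 0 ≤ B) (hβ : 0 ≤ β)
    (H : Incr N lam β δ ε Λ B Q l t v n h q E₀) (hlam : 0 ≤ lam) (hΛ : 0 < Λ)
    (hV : Vc N lam β d Q l t v n h q)
    (hc : PathS.Cnd e P Q E p) (hLv : e.Lv = fun ω => tb n (l ω))
    (htt : ∀ a, e.tt a = fun ω => fl1 (m * a) (t ω)) (hvv : ∀ r, e.vv r = fun ω => fl1 (m * r) (v ω))
    (h0 : 0 < e.thr) (h1 : e.thr < 1) (hmR : m * e.R ≤ q)
    {α ρ : ℕ → ℕ} {k i i' : ℕ} (hp : Pl h q k α ρ) (hi' : i' ≤ k) (hi : i < e.A + e.R)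
    (ht : e.thin E i) (hαi : α i' = m * e.ai E i) (hρi : ρ i' = m * e.ri E i)
    {G Lp x : ℝ} (hLp : Real.log (1 / p) ≤ Lp)
    (hG : DEL N d ε B Q l t v n h α ρ k + 2 * ((h : ℝ) - α i') * Real.log 2 +
      2 * (ε * (h + q) * Real.log 2) + ε * h * Real.log 2 + (k + 2) * B ≤ G)
    (hx1 : 2 * (m : ℝ) ≤ x)
    (hx2 : (q : ℝ) - (m * e.R : ℕ) + m * ((24 * (Lp + G / Λ) + 30) / Real.log (1 / e.thr)) ≤ x)
    (hG0 : 0 ≤ (24 * (Lp + G / Λ) + 30)) :
    (q : ℝ) - ρ i' ≤ x ∨ E₀ h q ≤ E₀ (α i') (ρ i') + 2 * ((h : ℝ) - α i') * Real.log 2 -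
      lam / 8 * ((q : ℝ) - ρ i') * Real.log 2 + er ε B (α i') h (ρ i') q := by
  have hl : 0 < Real.log 2 := Real.log_pos (by norm_num)
  have hlt : 0 < Real.log (1 / e.thr) := Real.log_pos (by rw [lt_div_iff₀ h0]; linarith)
  have hm0 : (0 : ℝ) ≤ m := Nat.cast_nonneg _
  by_cases hD : (q : ℝ) - ρ i' ≤ 2 * m
  · exact Or.inl (hD.trans hx1)
  rw [not_le] at hD
  have hriR : e.ri E i ≤ e.R := hc.ri_le hi.le
  rcases hriR.eq_or_lt with heq | hlt'
  · left
    rw [hρi, heq]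
    refine le_trans ?_ hx2
    have : 0 ≤ m * ((24 * (Lp + G / Λ) + 30) / Real.log (1 / e.thr)) :=
      mul_nonneg hm0 (div_nonneg hG0 hlt.le)
    linarith
  set j := (e.R - e.ri E i + 1) / 2 with hjd
  have hj : 1 ≤ j := by omega
  have hj2 : 2 * j ≤ e.R - e.ri E i + 1 := by omega
  have hj3 : e.R - e.ri E i ≤ 2 * j := by omega
  have hR : e.ri E i + j ≤ e.R := by omega
  have hah : α i' ≤ h := (hp.ma hi').trans hp.ah
  rcases lip_alt H hlam hΛ.le hc hLv htt hvv hi ht hj hR h0 (a' := h) (r' := q)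
    (by rw [← hαi]; exact hah) le_rfl ((Nat.mul_le_mul_left m hR).trans hmR) le_rfl with h2 | h2
  · right
    rw [← hαi, ← hρi] at h2
    refine h2.trans ?_
    have hmj : ((m * j : ℕ) : ℝ) ≤ ((q : ℝ) - ρ i' + m) / 2 := by
      have e1 : 2 * (m * j) ≤ m * (e.R - e.ri E i + 1) := by
        have := Nat.mul_le_mul_left m hj2
        nlinarith
      have e2 : m * (e.R - e.ri E i + 1) + m * e.ri E i = m * e.R + m := by
        have e3 : e.R - e.ri E i + e.ri E i = e.R := Nat.sub_add_cancel hriR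
        calc m * (e.R - e.ri E i + 1) + m * e.ri E i = m * (e.R - e.ri E i + e.ri E i) + m := by ring
          _ = m * e.R + m := by rw [e3]
      have e4 : 2 * (m * j) + ρ i' ≤ q + m := by
        rw [hρi]
        omega
      have e5 : (2 * ((m * j : ℕ) : ℝ)) + ρ i' ≤ q + m := by exact_mod_cast e4
      linarith
    have h3 : lam / 8 * ((q : ℝ) - ρ i') * Real.log 2 ≤
        lam / 2 * ((q : ℝ) - ρ i' - (m * j : ℕ)) * Real.log 2 := by
      refine mul_le_mul_of_nonneg_right ?_ hl.le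
      have h4 : ((q : ℝ) - ρ i') / 4 ≤ (q : ℝ) - ρ i' - (m * j : ℕ) := by linarith
      have h5 : lam / 2 * (((q : ℝ) - ρ i') / 4) ≤ lam / 2 * ((q : ℝ) - ρ i' - (m * j : ℕ)) :=
        mul_le_mul_of_nonneg_left h4 (by linarith)
      linarith
    linarith
  · left
    obtain ⟨I, hI0, hI1, hI2⟩ := h2
    rw [← hαi, ← hρi] at hI1
    have h3 := lip_end hN hε hB hβ H hV hp hi' hI1
    have h4 : I ≤ G / Λ := by
      rw [le_div_iff₀ hΛ]
      linarith
    have h5 : ((e.R : ℝ) - e.ri E i) / 2 ≤ j := by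
      have : ((e.R - e.ri E i : ℕ) : ℝ) ≤ 2 * j := by exact_mod_cast hj3
      rw [Nat.cast_sub hriR] at this
      linarith
    have h6 : ((e.R : ℝ) - e.ri E i) / 2 * Real.log (1 / e.thr) ≤ 12 * (Lp + G / Λ) + 15 := by
      refine (mul_le_mul_of_nonneg_right h5 hlt.le).trans (hI2.trans ?_)
      linarith
    have h7 : (e.R : ℝ) - e.ri E i ≤ (24 * (Lp + G / Λ) + 30) / Real.log (1 / e.thr) := by
      rw [le_div_iff₀ hlt]
      linarith
    refine le_trans ?_ hx2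
    have h8 := mul_le_mul_of_nonneg_left h7 hm0
    rw [hρi]
    push_cast
    linarith

end Vale.Agent.P127.U.Bud
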