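import Vale.Agent.P127.U.Lam.CoreB
import Vale.Agent.P127.U.H824.TailLip

/-!
# P127 / U / H824 : the tail of the path of PCore (helper824)

* `exists_exit` : first index with `ai = A` or `ri = R`.
* `DEL_core`, `DELp_core` : the budget of any path with the bound of the cost is at most `Del`.
* `tail_gen` : the tail for the path from any index `i₀`.
* `tail_core` : at the exit `h - m * ai ≤ θ h`, `q - m * ri ≤ θ h`;  `SP.tail` : the same for `SP`.
-/

set_option autoImplicit false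

namespace Vale.Agent.P127.U.Core

open Finset Vale.Agent.P127 Vale.Agent.P127.Stk Vale.Agent.P127.U Vale.Agent.P127.U.Inc
  Vale.Agent.P127.U.PathS Vale.Agent.P127.U.Bud

variable {Ω : Type} [Fintype Ω] {N lam β δ ε Λ B K d c lam' ε₁ θ Lp Del : ℝ} {P Q : Law Ω}
  {l : Ω → Ln} {t v : Ω → ℝ} {n h q m A R J b1 b2 M : ℕ} {G : Finset ℕ} {Ef : ℕ → ℕ → ℝ}
  {E : List Lt} {p : ℝ}

/-- first index with `ai = A` or `ri = R` -/
theorem exists_exit {α β γ : Type*} {e : Expl Ω α β γ} (hc : Cnd e P Q E p) :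
    ∃ k, k ≤ e.A + e.R ∧ (e.ai E k = e.A ∨ e.ri E k = e.R) ∧
      ∀ i < k, e.ai E i < e.A ∧ e.ri E i < e.R := by
  classical
  have hex : ∃ k, k ≤ e.A + e.R ∧ (e.ai E k = e.A ∨ e.ri E k = e.R) :=
    ⟨e.A + e.R, le_rfl, Or.inl hc.ai_top⟩
  obtain ⟨h1, h2⟩ := Nat.find_spec hex
  refine ⟨Nat.find hex, h1, h2, fun i hi => ?_⟩
  have h3 := Nat.find_min hex hi
  have h4 : i ≤ e.A + e.R := hi.le.trans h1
  have h5 := hc.ai_le h4
  have h6 := hc.ri_le h4
  push Not at h3
  obtain ⟨h7, h8⟩ := h3 h4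
  omega

variable (D : CoreD N lam β δ ε Λ B K d c lam' ε₁ Lp P Q l t v n h q m A R J b1 b2 G Ef E p)
  (Nn : CoreN N lam β δ ε Λ B d c ε₁ θ Lp Del n h q m J b2 M)

include D Nn

/-- number of steps -/
theorem card_core {k : ℕ} (hk : k ≤ A + R) : (k : ℝ) ≤ n / m := by
  have hm : (0 : ℝ) < m := by exact_mod_cast Nn.m1
  rw [le_div_iff₀ hm]
  have h1 : m * (A + R) ≤ n := by
    have h2 := D.hA
    have h3 := D.hR
    have h4 := D.nd.nq
    rw [mul_add]
    omega
  have h5 : k * m ≤ n := by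
    calc k * m ≤ (A + R) * m := Nat.mul_le_mul_right m hk
      _ = m * (A + R) := mul_comm _ _
      _ ≤ n := h1
  exact_mod_cast h5

/-- **the budget is at most `Del`**, with all the errors of the path -/
theorem DEL_core {α ρ : ℕ → ℕ} {k : ℕ} (hk : k ≤ A + R)
    (hcost : cost Q l t v n α ρ k ≤ c * q * Real.log 2 + (h : ℝ) / J * Real.log 2 + Real.log 6) :
    DEL N d ε B Q l t v n h α ρ k + 4 * (ε * (h + q) * Real.log 2) + (2 * (k : ℝ) + 8) * B ≤ Del := by
  have h1 := Nn.del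
  have h2 := card_core D Nn hk
  have hN : 0 ≤ N := by linarith [Nn.N2]
  have h3 := mul_le_mul_of_nonneg_left hcost hN
  have h4 : (2 * (k : ℝ) + 8) * B ≤ (2 * ((n : ℝ) / m) + 8) * B :=
    mul_le_mul_of_nonneg_right (by linarith) Nn.B0
  unfold DEL
  linarith

theorem DELp_core {α ρ : ℕ → ℕ} {k : ℕ} (hk : k ≤ A + R)
    (hcost : cost Q l t v n α ρ k ≤ c * q * Real.log 2 + (h : ℝ) / J * Real.log 2 + Real.log 6) :
    DELp N d ε B Q l t v n h q α ρ k ≤ Del := by
  have h1 := DEL_core D Nn hk hcost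
  have hl : 0 < Real.log 2 := Real.log_pos (by norm_num)
  have h2 : 0 ≤ ε * (q : ℝ) * Real.log 2 :=
    mul_nonneg (mul_nonneg Nn.ε0 (Nat.cast_nonneg _)) hl.le
  have h3 : 0 ≤ ε * (h : ℝ) * Real.log 2 :=
    mul_nonneg (mul_nonneg Nn.ε0 (Nat.cast_nonneg _)) hl.le
  have h4 : 0 ≤ (k : ℝ) * B := mul_nonneg (Nat.cast_nonneg _) Nn.B0
  have h5 := Nn.B0
  unfold DELp
  linarith

/-- **TAIL** for the path `α i = m * ai (i₀ + i)`, `ρ i = m * ri (i₀ + i)`, `i ≤ k` -/
theorem tail_gen {α ρ : ℕ → ℕ} {i₀ k : ℕ} (hk : i₀ + k ≤ A + R) (hp : Pl h q k α ρ)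
    (hα : ∀ i ≤ k, α i = m * (expl n m A R J c l t v).ai E (i₀ + i))
    (hρ : ∀ i ≤ k, ρ i = m * (expl n m A R J c l t v).ri E (i₀ + i))
    (hexit : (expl n m A R J c l t v).ai E (i₀ + k) = A ∨ (expl n m A R J c l t v).ri E (i₀ + k) = R)
    (hbef : ∀ i < i₀ + k, (expl n m A R J c l t v).ai E i < A)
    (hcost : cost Q l t v n α ρ k ≤ c * q * Real.log 2 + (h : ℝ) / J * Real.log 2 + Real.log 6) :
    (h : ℝ) - α k ≤ θ * h ∧ (q : ℝ) - ρ k ≤ θ * h := by
  have hl : 0 < Real.log 2 := Real.log_pos (by norm_num)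
  have hN : 0 ≤ N := by linarith [Nn.N2]
  have hm1 : (1 : ℝ) ≤ m := by exact_mod_cast Nn.m1
  have hmp : (0 : ℝ) < m := by linarith
  have hh0 : (0 : ℝ) ≤ h := Nat.cast_nonneg _
  have hq0 : (0 : ℝ) ≤ q := Nat.cast_nonneg _
  have hb0 : (0 : ℝ) ≤ b2 := Nat.cast_nonneg _
  have hβ : 0 ≤ β := by linarith [Nn.lam0, Nn.lamβ]
  have hΛ : 0 < Λ := by linarith [Nn.N2, Nn.NΛ]
  set e := expl n m A R J c l t v with he
  have hc : Cnd e P Q E p := D.cnd
  have heA : e.A = A := rfl
  have heR : e.R = R := rfl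
  have h0 : 0 < e.thr := Real.exp_pos _
  have hlt : Real.log (1 / e.thr) = c * (m * Real.log 2) := PathD.log_th c m
  have hA := D.hA
  have hA' := D.hA'
  have hR := D.hR
  have hR' := D.hR'
  have hAr : (h : ℝ) ≤ m * A + b2 + 2 * m := by exact_mod_cast hA'
  have hRr : (q : ℝ) ≤ m * R + b2 + 2 * m := by exact_mod_cast hR'
  have hDel := DEL_core D Nn (α := α) (ρ := ρ) (k := k) (by omega) hcost
  have e1 : 0 ≤ ε * (q : ℝ) * Real.log 2 := mul_nonneg (mul_nonneg Nn.ε0 hq0) hl.le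
  have e2 : 0 ≤ ε * (h : ℝ) * Real.log 2 := mul_nonneg (mul_nonneg Nn.ε0 hh0) hl.le
  have e3 : 0 ≤ (k : ℝ) * B := mul_nonneg (Nat.cast_nonneg _) Nn.B0
  have e4 := Nn.B0
  have t1 := Nn.t1
  have t2 := Nn.t2
  have t4 := Nn.t4
  have hy : 0 ≤ θ * (h : ℝ) := mul_nonneg Nn.θ0.le hh0
  have t3 : Del + 2 * ((b2 : ℝ) + 4 * m) * Real.log 2 ≤ lam / 4 * (θ * h) * Real.log 2 := by
    have h1 := Nn.t3
    have h2 : 0 ≤ lam / 8 * (θ * (h : ℝ)) * Real.log 2 :=
      mul_nonneg (mul_nonneg (by linarith [Nn.lam0]) hy) hl.le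
    linarith
  set X : ℝ := (Del + 2 * ((b2 : ℝ) + 4 * m) * Real.log 2) / Λ with hX
  have hthin : (q : ℝ) - ρ k ≤ (b2 : ℝ) + 2 * m ∨ e.ai E (i₀ + k) = A := by
    rcases hexit with h1 | h1
    · exact Or.inr h1
    · left
      rw [hρ k le_rfl, h1]
      push_cast
      linarith
  rcases hthin with hr | ha
  · -- exit through the slope
    refine tail_inc hN Nn.ε0 Nn.B0 hβ Nn.δ0 Nn.δ1 D.inc D.vc hp (i := k) (m := m) le_rfl
      (x₂ := (b2 : ℝ) + 2 * m) (x := (b2 : ℝ) + 2 * m) (y := θ * h) (κ := lam / 4)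
      (by linarith [Nn.lam0]) (by linarith) (Or.inr hr) (Nat.le_add_right _ _) (Or.inl hr) ?_ ?_ ?_ ?_
    · linarith
    · linarith
    · have : 2 * ((b2 : ℝ) + 2 * m + m) * Real.log 2 ≤ 2 * ((b2 : ℝ) + 4 * m) * Real.log 2 :=
        mul_le_mul_of_nonneg_right (by linarith) hl.le
      linarith
    · have h9 : δ * (θ * (h : ℝ)) ≤ 1 * (θ * (h : ℝ)) := mul_le_mul_of_nonneg_right Nn.δ1 hy
      linarith
  · -- exit through the time
    have hapos : 0 < A := by
      rcases Nat.eq_zero_or_pos A with h1 | h1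
      · exfalso
        rw [h1] at hAr
        have h9 : δ * (θ * (h : ℝ)) ≤ 1 * (θ * (h : ℝ)) := mul_le_mul_of_nonneg_right Nn.δ1 hy
        have h10 : θ * (h : ℝ) ≤ 1 / 2 * h := mul_le_mul_of_nonneg_right Nn.θ1 hh0
        push_cast at hAr
        linarith
      · exact h1
    obtain ⟨i, rfl⟩ : ∃ i, k = i + 1 := by
      rcases Nat.exists_eq_succ_of_ne_zero (n := k) (by
        intro h1
        rw [h1] at ha
        have h2 := hα 0 (Nat.zero_le _)
        rw [hp.a0, ha] at h2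
        have := Nn.m1
        rcases Nat.mul_eq_zero.1 h2.symm with h3 | h3 <;> omega) with ⟨i, hi⟩
      exact ⟨i, hi⟩
    have hi : i₀ + i < e.A + e.R := by
      rw [heA, heR]
      omega
    have hbi := hbef (i₀ + i) (by omega)
    have hstep : e.ai E (i₀ + i + 1) = e.ai E (i₀ + i) + 1 := by
      rcases hc.step_cases hi with h1 | h1
      · exact h1.1
      · exfalso
        rw [← add_assoc, h1.1] at ha
        omega
    have hth : e.thin E (i₀ + i) := hc.thin_of_a hi hstep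
    have hai : e.ai E (i₀ + i) + 1 = A := by
      rw [← hstep]
      exact ha
    have hriR : e.ri E (i₀ + i) ≤ R := hc.ri_le hi.le
    have hmA : α i + m = m * A := by
      rw [hα i (Nat.le_succ i), ← hai]
      ring
    have hmAr : (α i : ℝ) + m = m * A := by exact_mod_cast hmA
    have hhai : (h : ℝ) - α i ≤ (b2 : ℝ) + 3 * m := by linarith
    have hmR : m * R ≤ q := by omega
    have hD0 : 0 ≤ Del + 2 * ((b2 : ℝ) + 4 * m) * Real.log 2 := by
      have h6 : 0 ≤ 2 * ((b2 : ℝ) + 4 * m) * Real.log 2 := by positivity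
      have h7 := bud_win hN Nn.ε0 D.inc D.vc (sg := id) monotone_id rfl (M := i + 1) hp
      have h8 : ∑ j ∈ range (i + 1), -er ε B (α j) (α (j + 1)) (ρ j) (ρ (j + 1)) ≤
          ∑ j ∈ range (i + 1), dft N β Q l t v n (α j) (ρ j) (α (j + 1))
            (Ef (α (j + 1)) (ρ (j + 1)) - Ef (α j) (ρ j)) :=
        Finset.sum_le_sum fun j hj => dft_ge D.inc (hp.ma (Nat.le_succ j))
          ((hp.ma (Nat.succ_le_of_lt (Finset.mem_range.1 hj))).trans hp.ah) (hp.mr (Nat.le_succ j))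
          ((hp.mr (Nat.succ_le_of_lt (Finset.mem_range.1 hj))).trans hp.rq)
      have h9 : ∑ j ∈ range (i + 1), -er ε B (α j) (α (j + 1)) (ρ j) (ρ (j + 1)) =
          -(ε * ((((α (i + 1) : ℕ) : ℝ) - (α 0 : ℕ)) +
            (((ρ (i + 1) : ℕ) : ℝ) - (ρ 0 : ℕ))) * Real.log 2 + ((i + 1 : ℕ) : ℝ) * B) := by
        rw [← Finset.sum_range_sub (fun j => ((α j : ℕ) : ℝ)) (i + 1),
          ← Finset.sum_range_sub (fun j => ((ρ j : ℕ) : ℝ)) (i + 1), Finset.sum_neg_distrib,
          ← Finset.sum_add_distrib, Finset.mul_sum, Finset.sum_mul]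
        congr 1
        unfold er
        rw [Finset.sum_add_distrib, Finset.sum_const, card_range, nsmul_eq_mul]
      have h10 : ε * ((((α (i + 1) : ℕ) : ℝ) - (α 0 : ℕ)) +
            (((ρ (i + 1) : ℕ) : ℝ) - (ρ 0 : ℕ))) * Real.log 2 ≤ ε * (h + q) * Real.log 2 := by
        refine mul_le_mul_of_nonneg_right (mul_le_mul_of_nonneg_left ?_ Nn.ε0) hl.le
        have a1 : (α (i + 1) : ℝ) ≤ h := by exact_mod_cast hp.ah
        have a2 : (ρ (i + 1) : ℝ) ≤ q := by exact_mod_cast hp.rq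
        have a3 : (0 : ℝ) ≤ (α 0 : ℝ) := Nat.cast_nonneg _
        have a4 : (0 : ℝ) ≤ (ρ 0 : ℝ) := Nat.cast_nonneg _
        linarith
      simp only [id] at h7
      unfold DELp at h7
      push_cast at h9 hDel e3
      linarith
    have hX0 : 0 ≤ (12 * (Lp + X) + 15) / (c * Real.log 2) := by
      refine div_nonneg ?_ (mul_nonneg Nn.c0.le hl.le)
      have : 0 ≤ X := div_nonneg hD0 hΛ.le
      have := Nn.Lp0
      linarith
    -- the alternative
    have hL : (q : ℝ) - ρ i ≤ θ * h ∨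
        Ef h q ≤ Ef (α i) (ρ i) + 2 * ((h : ℝ) - α i) * Real.log 2 -
          lam / 4 * ((q : ℝ) - ρ i) * Real.log 2 + er ε B (α i) h (ρ i) q := by
      have hρi : (ρ i : ℝ) = m * e.ri E (i₀ + i) := by exact_mod_cast hρ i (Nat.le_succ i)
      by_cases hsm : R ≤ e.ri E (i₀ + i) + 1
      · left
        have h1 : (m : ℝ) * R ≤ m * (e.ri E (i₀ + i) + 1) := by
          refine mul_le_mul_of_nonneg_left ?_ hmp.le
          exact_mod_cast hsm
        rw [hρi]
        linarith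
      rw [not_le] at hsm
      set j := (R - e.ri E (i₀ + i)) / 2 with hj
      have hj1 : 1 ≤ j := by omega
      have hj2 : 2 * j ≤ R - e.ri E (i₀ + i) := by omega
      have hj3 : R - e.ri E (i₀ + i) ≤ 2 * j + 1 := by omega
      have hjR : e.ri E (i₀ + i) + j ≤ e.R := by
        rw [heR]
        omega
      have hαi := hα i (Nat.le_succ i)
      have hρi' := hρ i (Nat.le_succ i)
      rcases lip_alt D.inc Nn.lam0.le hΛ.le hc rfl (fun _ => rfl) (fun _ => rfl) hi hth hj1 hjR h0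
        (a' := h) (r' := q) (by rw [← hαi]; exact (hp.ma (Nat.le_succ i)).trans hp.ah) le_rfl
        ((Nat.mul_le_mul_left m hjR).trans hmR) le_rfl with h2 | h2
      · right
        rw [← hαi, ← hρi'] at h2
        refine h2.trans ?_
        have h3 : (2 : ℝ) * j ≤ R - e.ri E (i₀ + i) := by
          have : ((2 * j : ℕ) : ℝ) ≤ ((R - e.ri E (i₀ + i) : ℕ) : ℝ) := by exact_mod_cast hj2
          rw [Nat.cast_sub hriR] at this
          push_cast at this
          exact this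
        have h4 : (m : ℝ) * R ≤ q := by exact_mod_cast hmR
        have h5 : (m : ℝ) * (2 * j) ≤ m * (R - e.ri E (i₀ + i)) := mul_le_mul_of_nonneg_left h3 hmp.le
        have h6 : ((q : ℝ) - ρ i) / 2 ≤ (q : ℝ) - ρ i - (m * j : ℕ) := by
          rw [hρi]
          push_cast
          linarith
        have h7 : lam / 4 * ((q : ℝ) - ρ i) * Real.log 2 ≤
            lam / 2 * ((q : ℝ) - ρ i - (m * j : ℕ)) * Real.log 2 := by
          refine mul_le_mul_of_nonneg_right ?_ hl.le
          have := mul_le_mul_of_nonneg_left h6 (by linarith [Nn.lam0] : 0 ≤ lam / 2)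
          linarith
        linarith
      · left
        obtain ⟨I, hI0, hI1, hI2⟩ := h2
        rw [← hαi, ← hρi'] at hI1
        have h3 := lip_end hN Nn.ε0 Nn.B0 hβ D.inc D.vc hp (Nat.le_succ i) hI1
        have h4 : 2 * ((h : ℝ) - α i) * Real.log 2 ≤ 2 * ((b2 : ℝ) + 4 * m) * Real.log 2 :=
          mul_le_mul_of_nonneg_right (by linarith) hl.le
        have h5 : I ≤ X := by
          rw [hX, le_div_iff₀ hΛ]
          linarith
        have h6 : (j : ℝ) * (c * (m * Real.log 2)) ≤ 12 * (Lp + X) + 15 := by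
          rw [hlt] at hI2
          have := D.lp
          linarith
        have h7 : (m : ℝ) * j ≤ (12 * (Lp + X) + 15) / (c * Real.log 2) := by
          rw [le_div_iff₀ (mul_pos Nn.c0 hl)]
          linarith
        have h8 : (R : ℝ) - e.ri E (i₀ + i) ≤ 2 * j + 1 := by
          have : ((R - e.ri E (i₀ + i) : ℕ) : ℝ) ≤ ((2 * j + 1 : ℕ) : ℝ) := by exact_mod_cast hj3
          rw [Nat.cast_sub hriR] at this
          push_cast at this
          exact this
        have h9 : (m : ℝ) * (R - e.ri E (i₀ + i)) ≤ m * (2 * j + 1) :=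
          mul_le_mul_of_nonneg_left h8 hmp.le
        rw [hρi]
        linarith
    have hak : α (i + 1) = m * A := by
      rw [hα (i + 1) le_rfl, ha]
    refine tail_inc hN Nn.ε0 Nn.B0 hβ Nn.δ0 Nn.δ1 D.inc D.vc hp (i := i) (m := m) (Nat.le_succ i)
      (x₂ := (b2 : ℝ) + 2 * m) (x := θ * h) (y := θ * h) (κ := lam / 4)
      (by linarith [Nn.lam0]) (by linarith) (Or.inl ?_) ?_ hL ?_ ?_ ?_ le_rfl
    · rw [hak]
      push_cast
      linarith
    · rw [hak, ← hmA]
    · linarith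
    · linarith
    · have : 2 * ((b2 : ℝ) + 2 * m + m) * Real.log 2 ≤ 2 * ((b2 : ℝ) + 4 * m) * Real.log 2 :=
        mul_le_mul_of_nonneg_right (by linarith) hl.le
      linarith

/-- **TAIL of PCore**, path from the index `0` -/
theorem tail_core {k : ℕ} (hk : k ≤ A + R)
    (hexit : (expl n m A R J c l t v).ai E k = A ∨ (expl n m A R J c l t v).ri E k = R)
    (hbef : ∀ i < k, (expl n m A R J c l t v).ai E i < A)
    (hcost : cost Q l t v n (fun i => m * (expl n m A R J c l t v).ai E i)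
      (fun i => m * (expl n m A R J c l t v).ri E i) k ≤
        c * q * Real.log 2 + (h : ℝ) / J * Real.log 2 + Real.log 6) :
    (h : ℝ) - (m * (expl n m A R J c l t v).ai E k : ℕ) ≤ θ * h ∧
      (q : ℝ) - (m * (expl n m A R J c l t v).ri E k : ℕ) ≤ θ * h := by
  have hc : Cnd (expl n m A R J c l t v) P Q E p := D.cnd
  have hA := D.hA
  have hR := D.hR
  have haik : (expl n m A R J c l t v).ai E k ≤ A := hc.ai_le hk
  have hrik : (expl n m A R J c l t v).ri E k ≤ R := hc.ri_le hk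
  refine tail_gen D Nn (i₀ := 0) (k := k) (by omega) (α := fun i => m * (expl n m A R J c l t v).ai E i)
    (ρ := fun i => m * (expl n m A R J c l t v).ri E i) ?_ (fun i _ => by rw [Nat.zero_add])
    (fun i _ => by rw [Nat.zero_add]) (by rw [Nat.zero_add]; exact hexit)
    (fun i hi => hbef i (by omega)) hcost
  exact
    { ma := fun i j hij => Nat.mul_le_mul_left m (hc.ai_mono' hij)
      mr := fun i j hij => Nat.mul_le_mul_left m (hc.ri_mono' hij)
      a0 := by
        show m * (expl n m A R J c l t v).ai E 0 = 0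
        rw [hc.ai_zero, mul_zero]
      ah := (Nat.mul_le_mul_left m haik).trans (by omega)
      rq := (Nat.mul_le_mul_left m hrik).trans (by omega) }

/-- admissible levels -/
theorem SP.pl' {α ρ : ℕ → ℕ} {i₀ k : ℕ} (hS : SP (expl n m A R J c l t v) E m i₀ k α ρ) :
    Pl h q k α ρ := by
  have hc : Cnd (expl n m A R J c l t v) P Q E p := D.cnd
  have hA := D.hA
  have hR := D.hR
  have haik : (expl n m A R J c l t v).ai E (i₀ + k) ≤ A := hc.ai_le hS.kn
  have hrik : (expl n m A R J c l t v).ri E (i₀ + k) ≤ R := hc.ri_le hS.kn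
  exact
    { ma := hS.ma
      mr := hS.mr
      a0 := by
        rw [hS.eqa 0 (Nat.zero_le _), Nat.add_zero, hS.ai0, mul_zero]
      ah := by
        rw [hS.eqa k le_rfl]
        exact (Nat.mul_le_mul_left m haik).trans (by omega)
      rq := by
        rw [hS.eqr k le_rfl]
        exact (Nat.mul_le_mul_left m hrik).trans (by omega) }

/-- **TAIL of PCore** for the shifted and cut path, with the cost of the shifted path -/
theorem SP.tail {α ρ : ℕ → ℕ} {i₀ k : ℕ} (hS : SP (expl n m A R J c l t v) E m i₀ k α ρ)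
    (hcost : cost Q l t v n α ρ k ≤ c * q * Real.log 2 + (h : ℝ) / J * Real.log 2 + Real.log 6) :
    (h : ℝ) - α k ≤ θ * h ∧ (q : ℝ) - ρ k ≤ θ * h :=
  tail_gen D Nn hS.kn (SP.pl' D Nn hS) hS.eqa hS.eqr
    (hS.exit.imp (fun h => h.1) (fun h => h)) (fun i hi => (hS.lt i hi).1) hcost

end Vale.Agent.P127.U.Core
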