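import Vale.Agent.P127.U.Pin

/-!
# P127 / U / H824 : Fourier form of the M-step (helper824)

* `cex` complex expectation, `ch x = exp (2 π i x)`.
* `fc` two independences ⇒ Fourier decay, for one law: if `E` is nearly independent of `Y` and of
  `Y'`, and `g (Y') = u (E) f (Y)`, then `|E f(Y)| * E |u (E) - u (E')|` is small.
* `fej` Fejér lemma: Fourier decay on average over `D` ⇒ full conditional entropy given `D`.
-/

set_option autoImplicit false

namespace Vale.Agent.P127.U.Four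

open Finset Vale.Agent.P127 Vale.Agent.P127.Stk Vale.Agent.P127.U.Pin

variable {Ω : Type} [Fintype Ω] {S T T' U V : Type*}

/-- complex expectation -/
noncomputable def cex (P : Law Ω) (f : Ω → ℂ) : ℂ := ∑ ω, (P.w ω : ℂ) * f ω

/-- character -/
noncomputable def ch (x : ℝ) : ℂ := Complex.exp ((2 * Real.pi * x : ℝ) * Complex.I)

lemma ch_add (x y : ℝ) : ch (x + y) = ch x * ch y := by
  unfold ch
  rw [← Complex.exp_add]
  congr 1
  push_cast
  ring

lemma norm_ch (x : ℝ) : ‖ch x‖ = 1 := Complex.norm_exp_ofReal_mul_I _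

lemma ch_zero : ch 0 = 1 := by simp [ch]

lemma ch_int (n : ℤ) : ch n = 1 := by
  unfold ch
  have : ((2 * Real.pi * (n : ℝ) : ℝ) : ℂ) * Complex.I = n * (2 * Real.pi * Complex.I) := by
    push_cast
    ring
  rw [this]
  exact Complex.exp_int_mul_two_pi_mul_I n

lemma ch_neg (x : ℝ) : ch (-x) = (starRingEnd ℂ) (ch x) := by
  unfold ch
  rw [← Complex.exp_conj, map_mul, Complex.conj_I, Complex.conj_ofReal]
  congr 1
  push_cast
  ring

lemma ch_re (x : ℝ) : (ch x).re = Real.cos (2 * Real.pi * x) := by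
  unfold ch
  rw [Complex.exp_ofReal_mul_I_re]

lemma ch_add_int (x : ℝ) (n : ℤ) : ch (x + n) = ch x := by
  rw [ch_add, ch_int, mul_one]

lemma cex_congr (P : Law Ω) {f g : Ω → ℂ} (h : ∀ ω, 0 < P.w ω → f ω = g ω) :
    cex P f = cex P g := by
  unfold cex
  refine Finset.sum_congr rfl fun ω _ => ?_
  rcases (P.nn ω).eq_or_lt with h0 | h0
  · simp [← h0]
  · rw [h ω h0]

lemma cex_sub (P : Law Ω) (f g : Ω → ℂ) : cex P (fun ω => f ω - g ω) = cex P f - cex P g := by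
  simp [cex, mul_sub, Finset.sum_sub_distrib]

lemma cex_const_mul (P : Law Ω) (c : ℂ) (f : Ω → ℂ) :
    cex P (fun ω => c * f ω) = c * cex P f := by
  unfold cex
  rw [Finset.mul_sum]
  exact Finset.sum_congr rfl fun ω _ => by ring

lemma cex_sum {ι : Type*} (P : Law Ω) (s : Finset ι) (f : ι → Ω → ℂ) :
    cex P (fun ω => ∑ i ∈ s, f i ω) = ∑ i ∈ s, cex P (f i) := by
  unfold cex
  simp only [Finset.mul_sum]
  exact Finset.sum_comm

lemma norm_cex_le (P : Law Ω) (f : Ω → ℂ) : ‖cex P f‖ ≤ P.ex (fun ω => ‖f ω‖) := by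
  unfold cex Law.ex
  refine (norm_sum_le _ _).trans (le_of_eq ?_)
  refine Finset.sum_congr rfl fun ω _ => ?_
  rw [norm_mul, Complex.norm_real, Real.norm_eq_abs, abs_of_nonneg (P.nn ω)]

lemma norm_cex_le_one (P : Law Ω) (f : Ω → ℂ) (h : ∀ ω, ‖f ω‖ ≤ 1) : ‖cex P f‖ ≤ 1 := by
  refine (norm_cex_le P f).trans ?_
  have := P.ex_mono (f := fun ω => ‖f ω‖) (g := fun _ => 1) fun ω _ => h ω
  rwa [P.ex_const] at this

lemma cex_comp (P : Law Ω) (X : Ω → S) (g : S → ℂ) :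
    cex P (fun ω => g (X ω)) = ∑ x ∈ img X, (P.pr X x : ℂ) * g x := by
  classical
  unfold cex
  rw [← Finset.sum_fiberwise_of_maps_to (g := X) (t := img X) (by simp)]
  refine Finset.sum_congr rfl fun x _ => ?_
  unfold Law.pr
  push_cast
  rw [Finset.sum_mul]
  refine Finset.sum_congr rfl fun ω hω => ?_
  rw [(Finset.mem_filter.1 hω).2]

/-- complex test functions -/
lemma cex_sub_le_dl {Ω' : Type} [Fintype Ω'] (P : Law Ω) (X : Ω → S) (Q : Law Ω') (X' : Ω' → S)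
    (f : S → ℂ) (hf : ∀ x, ‖f x‖ ≤ 1) :
    ‖cex P (fun ω => f (X ω)) - cex Q (fun ω => f (X' ω))‖ ≤ dl P X Q X' := by
  classical
  have e1 : cex P (fun ω => f (X ω)) = ∑ x ∈ img X ∪ img X', (P.pr X x : ℂ) * f x := by
    rw [cex_comp]
    refine Finset.sum_subset Finset.subset_union_left fun x _ hx => ?_
    rw [pr_zero_of_not_img P X hx, Complex.ofReal_zero, zero_mul]
  have e2 : cex Q (fun ω => f (X' ω)) = ∑ x ∈ img X ∪ img X', (Q.pr X' x : ℂ) * f x := by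
    rw [cex_comp]
    refine Finset.sum_subset Finset.subset_union_right fun x _ hx => ?_
    rw [pr_zero_of_not_img Q X' hx, Complex.ofReal_zero, zero_mul]
  rw [e1, e2, ← Finset.sum_sub_distrib]
  unfold dl
  refine (norm_sum_le _ _).trans (Finset.sum_le_sum fun x _ => ?_)
  rw [← sub_mul, norm_mul, ← Complex.ofReal_sub, Complex.norm_real, Real.norm_eq_abs]
  calc _ ≤ |P.pr X x - Q.pr X' x| * 1 := mul_le_mul_of_nonneg_left (hf x) (abs_nonneg _)
    _ = _ := mul_one _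

/-- **two independences ⇒ Fourier decay** for one law -/
theorem fc (R : Law Ω) (E : Ω → S) (Y : Ω → T) (Y' : Ω → T') (f : T → ℂ) (g : T' → ℂ) (u : S → ℂ)
    (hf : ∀ y, ‖f y‖ ≤ 1) (hg : ∀ y, ‖g y‖ ≤ 1) (hu : ∀ s, ‖u s‖ ≤ 1) {e : ℝ}
    (h : ∀ ω, 0 < R.w ω → ‖g (Y' ω) - u (E ω) * f (Y ω)‖ ≤ e) :
    ‖cex R (fun ω => f (Y ω))‖ * R.ex (fun ω₁ => R.ex (fun ω₂ => ‖u (E ω₁) - u (E ω₂)‖)) ≤
      2 * (il R E Y + il R E Y') + 2 * e := by
  set F := cex R (fun ω => f (Y ω)) with hF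
  set G := cex R (fun ω => g (Y' ω)) with hG
  have key : ∀ ω₁, 0 < R.w ω₁ → ‖G - u (E ω₁) * F‖ ≤
      dl (R.cond E (E ω₁)) Y R Y + dl (R.cond E (E ω₁)) Y' R Y' + e := by
    intro ω₁ hω₁
    have h0 := R.pr_pos E hω₁
    set R₁ := R.cond E (E ω₁) with hR₁
    have h1 := cex_sub_le_dl R₁ Y R Y f hf
    have h2 := cex_sub_le_dl R₁ Y' R Y' g hg
    have h3 : ‖cex R₁ (fun ω => g (Y' ω)) - u (E ω₁) * cex R₁ (fun ω => f (Y ω))‖ ≤ e := by
      rw [← cex_const_mul, ← cex_sub]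
      refine (norm_cex_le _ _).trans ?_
      have h4 := R₁.ex_mono (f := fun ω => ‖g (Y' ω) - u (E ω₁) * f (Y ω)‖) (g := fun _ => e)
        (fun ω hω => by
          obtain ⟨h5, h6⟩ := cond_supp R E h0 hω
          have := h ω h6
          rwa [h5] at this)
      rwa [R₁.ex_const] at h4
    have h4 : G - u (E ω₁) * F = -(cex R₁ (fun ω => g (Y' ω)) - G) +
        (cex R₁ (fun ω => g (Y' ω)) - u (E ω₁) * cex R₁ (fun ω => f (Y ω))) +
        u (E ω₁) * (cex R₁ (fun ω => f (Y ω)) - F) := by ring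
    rw [h4]
    refine (norm_add₃_le).trans ?_
    rw [norm_neg, norm_mul]
    have h5 : ‖u (E ω₁)‖ * ‖cex R₁ (fun ω => f (Y ω)) - F‖ ≤ 1 * dl R₁ Y R Y :=
      mul_le_mul (hu _) h1 (norm_nonneg _) zero_le_one
    linarith
  have h1 : ‖F‖ * R.ex (fun ω₁ => R.ex (fun ω₂ => ‖u (E ω₁) - u (E ω₂)‖)) =
      R.ex (fun ω₁ => R.ex (fun ω₂ => ‖F‖ * ‖u (E ω₁) - u (E ω₂)‖)) := by
    rw [← R.ex_const_mul]
    refine R.ex_congr fun ω₁ _ => ?_
    rw [← R.ex_const_mul]
  rw [h1]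
  have h2 : R.ex (fun ω₁ => R.ex (fun ω₂ => ‖F‖ * ‖u (E ω₁) - u (E ω₂)‖)) ≤
      R.ex (fun ω₁ => R.ex (fun ω₂ =>
        (dl (R.cond E (E ω₁)) Y R Y + dl (R.cond E (E ω₁)) Y' R Y' + e) +
        (dl (R.cond E (E ω₂)) Y R Y + dl (R.cond E (E ω₂)) Y' R Y' + e))) := by
    refine R.ex_mono fun ω₁ hω₁ => R.ex_mono fun ω₂ hω₂ => ?_
    have h3 := key ω₁ hω₁
    have h4 := key ω₂ hω₂
    have h5 : ‖F‖ * ‖u (E ω₁) - u (E ω₂)‖ = ‖(G - u (E ω₂) * F) - (G - u (E ω₁) * F)‖ := by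
      rw [← norm_mul]
      congr 1
      ring
    rw [h5]
    refine (norm_sub_le _ _).trans ?_
    linarith
  refine h2.trans (le_of_eq ?_)
  rw [il_eq_ex, il_eq_ex]
  simp only [R.ex_add, R.ex_const]
  ring

/-! ### the Fejér lemma -/

/-- Dirichlet sum -/
noncomputable def Sn (n : ℕ) (y : ℝ) : ℂ := ∑ j ∈ range n, ch (j * y)

lemma Sn_lower {n : ℕ} (hn : 0 < n) {y : ℝ} (hy : |y| ≤ 1 / (4 * n)) :
    (n : ℝ) / 2 ≤ ‖Sn n y‖ := by
  have hn' : (0 : ℝ) < n := by exact_mod_cast hn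
  set c : ℝ := ((n : ℝ) - 1) / 2 with hc
  have h1 : ‖Sn n y‖ = ‖∑ j ∈ range n, ch ((j - c) * y)‖ := by
    have : ∑ j ∈ range n, ch ((j - c) * y) = ch (-(c * y)) * Sn n y := by
      unfold Sn
      rw [Finset.mul_sum]
      refine Finset.sum_congr rfl fun j _ => ?_
      rw [← ch_add]
      congr 1
      ring
    rw [this, norm_mul, norm_ch, one_mul]
  rw [h1]
  refine le_trans ?_ (Complex.re_le_norm _)
  rw [Complex.re_sum]
  have h2 : ∑ _j ∈ range n, (1 / 2 : ℝ) ≤ ∑ j ∈ range n, (ch ((j - c) * y)).re := by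
    refine Finset.sum_le_sum fun j hj => ?_
    rw [ch_re]
    have hj' : (j : ℝ) ≤ n - 1 := by
      have : j + 1 ≤ n := Finset.mem_range.1 hj
      have : ((j + 1 : ℕ) : ℝ) ≤ n := by exact_mod_cast this
      push_cast at this
      linarith
    have hj0 : (0 : ℝ) ≤ j := Nat.cast_nonneg j
    have h3 : |(j : ℝ) - c| ≤ n / 2 := by
      rw [abs_le]
      constructor <;> rw [hc] <;> linarith
    have h4 : |((j : ℝ) - c) * y| ≤ 1 / 8 := by
      rw [abs_mul]
      calc |(j : ℝ) - c| * |y| ≤ (n / 2) * (1 / (4 * n)) :=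
            mul_le_mul h3 hy (abs_nonneg _) (by positivity)
        _ = 1 / 8 := by field_simp; norm_num
    have h5 : |2 * Real.pi * (((j : ℝ) - c) * y)| ≤ 1 := by
      rw [abs_mul, abs_of_pos (by positivity : (0 : ℝ) < 2 * Real.pi)]
      have hpi := Real.pi_le_four
      have hpi0 := Real.pi_pos
      nlinarith [abs_nonneg (((j : ℝ) - c) * y)]
    have h6 := Real.one_sub_sq_div_two_le_cos (x := 2 * Real.pi * (((j : ℝ) - c) * y))
    have h7 : (2 * Real.pi * (((j : ℝ) - c) * y)) ^ 2 ≤ 1 := by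
      rw [← sq_abs]
      nlinarith [abs_nonneg (2 * Real.pi * (((j : ℝ) - c) * y))]
    linarith
  refine le_trans (le_of_eq ?_) h2
  rw [Finset.sum_const, Finset.card_range, nsmul_eq_mul]
  ring

lemma Sn_normSq (n : ℕ) (y : ℝ) : ((‖Sn n y‖ ^ 2 : ℝ) : ℂ) =
    ∑ j ∈ range n, ∑ j' ∈ range n, ch (((j : ℤ) - (j' : ℤ) : ℤ) * y) := by
  have h1 : ((‖Sn n y‖ ^ 2 : ℝ) : ℂ) = Sn n y * (starRingEnd ℂ) (Sn n y) := by
    rw [Complex.mul_conj, Complex.normSq_eq_norm_sq]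
  rw [h1]
  unfold Sn
  rw [map_sum, Finset.sum_mul_sum]
  refine Finset.sum_congr rfl fun j _ => Finset.sum_congr rfl fun j' _ => ?_
  rw [← ch_neg, ← ch_add]
  congr 1
  push_cast
  ring

/-- the Fourier coefficient of the law of `x` -/
noncomputable def fq (P : Law Ω) (x : Ω → Fin 2 → ℝ) (ξ : Fin 2 → ℤ) : ℂ :=
  cex P (fun ω => ch (ξ 0 * x ω 0 + ξ 1 * x ω 1))

lemma norm_fq_le_one (P : Law Ω) (x : Ω → Fin 2 → ℝ) (ξ : Fin 2 → ℤ) : ‖fq P x ξ‖ ≤ 1 :=
  norm_cex_le_one P _ fun _ => (norm_ch _).le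

/-- the total mass of the Fourier coefficients -/
noncomputable def tq (P : Law Ω) (x : Ω → Fin 2 → ℝ) (n : ℕ) : ℝ :=
  ∑ j ∈ range n, ∑ j' ∈ range n, ∑ l ∈ range n, ∑ l' ∈ range n,
    ‖fq P x ![(j : ℤ) - (j' : ℤ), (l : ℤ) - (l' : ℤ)]‖

/-- the mass of a cell of side `1 / (2 n)` is bounded by the Fourier coefficients -/
lemma pr_cell_le (R : Law Ω) (x : Ω → Fin 2 → ℝ) (k : ℕ) (c : Fin 2 → ℤ) :
    R.pr (fun ω => fl (k + 1) (fun i => Int.fract (x ω i))) c ≤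
      16 / ((2 : ℝ) ^ k) ^ 4 * tq R x (2 ^ k) := by
  classical
  set n : ℕ := 2 ^ k with hn
  have hn0 : 0 < n := by positivity
  have hnR : ((n : ℕ) : ℝ) = (2 : ℝ) ^ k := by rw [hn]; push_cast; ring
  have hnpos : (0 : ℝ) < (n : ℝ) := by exact_mod_cast hn0
  set z : Fin 2 → ℝ := fun i => ((c i : ℝ) + 1 / 2) / (2 : ℝ) ^ (k + 1) with hz
  set y : Fin 2 → Ω → ℝ := fun i ω => Int.fract (x ω i) - z i with hy
  -- lower bound on the cell
  have h1 : R.pr (fun ω => fl (k + 1) (fun i => Int.fract (x ω i))) c ≤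
      R.ex (fun ω => 16 / (n : ℝ) ^ 4 * (‖Sn n (y 0 ω)‖ ^ 2 * ‖Sn n (y 1 ω)‖ ^ 2)) := by
    rw [Law.pr_eq_ex]
    refine R.ex_mono fun ω _ => ?_
    by_cases hω : fl (k + 1) (fun i => Int.fract (x ω i)) = c
    · rw [Law.ind_of hω]
      have h2 : ∀ i, (n : ℝ) / 2 ≤ ‖Sn n (y i ω)‖ := by
        intro i
        refine Sn_lower hn0 ?_
        have h3 : ⌊(2 : ℝ) ^ (k + 1) * Int.fract (x ω i)⌋ = c i := by
          have := congrFun hω i
          exact this
        have h4 := Int.floor_le ((2 : ℝ) ^ (k + 1) * Int.fract (x ω i))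
        have h5 := Int.lt_floor_add_one ((2 : ℝ) ^ (k + 1) * Int.fract (x ω i))
        rw [h3] at h4 h5
        have hp : (0 : ℝ) < (2 : ℝ) ^ (k + 1) := by positivity
        have h6 : |(2 : ℝ) ^ (k + 1) * y i ω| ≤ 1 / 2 := by
          have : (2 : ℝ) ^ (k + 1) * y i ω =
              (2 : ℝ) ^ (k + 1) * Int.fract (x ω i) - ((c i : ℝ) + 1 / 2) := by
            simp only [hy, hz]
            field_simp
          rw [this, abs_le]
          constructor <;> linarith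
        rw [abs_mul, abs_of_pos hp] at h6
        have h7 : |y i ω| ≤ (1 / 2) / (2 : ℝ) ^ (k + 1) := by
          rw [le_div_iff₀ hp, mul_comm]
          exact h6
        refine h7.trans (le_of_eq ?_)
        rw [hnR, pow_succ]
        field_simp
        norm_num
      have h3 : ((n : ℝ) / 2) ^ 2 ≤ ‖Sn n (y 0 ω)‖ ^ 2 :=
        pow_le_pow_left₀ (by positivity) (h2 0) 2
      have h4 : ((n : ℝ) / 2) ^ 2 ≤ ‖Sn n (y 1 ω)‖ ^ 2 :=
        pow_le_pow_left₀ (by positivity) (h2 1) 2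
      have h5 : ((n : ℝ) / 2) ^ 2 * ((n : ℝ) / 2) ^ 2 ≤
          ‖Sn n (y 0 ω)‖ ^ 2 * ‖Sn n (y 1 ω)‖ ^ 2 :=
        mul_le_mul h3 h4 (by positivity) (by positivity)
      calc (1 : ℝ) = 16 / (n : ℝ) ^ 4 * (((n : ℝ) / 2) ^ 2 * ((n : ℝ) / 2) ^ 2) := by
            field_simp
            norm_num
        _ ≤ _ := mul_le_mul_of_nonneg_left h5 (by positivity)
    · rw [Law.ind_not hω]
      positivity
  refine h1.trans ?_
  rw [R.ex_const_mul, ← hnR]
  refine mul_le_mul_of_nonneg_left ?_ (by positivity)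
  -- expansion
  have h2 : ((R.ex (fun ω => ‖Sn n (y 0 ω)‖ ^ 2 * ‖Sn n (y 1 ω)‖ ^ 2) : ℝ) : ℂ) =
      ∑ j ∈ range n, ∑ j' ∈ range n, ∑ l ∈ range n, ∑ l' ∈ range n,
        cex R (fun ω => ch (((j : ℤ) - (j' : ℤ) : ℤ) * y 0 ω) *
          ch (((l : ℤ) - (l' : ℤ) : ℤ) * y 1 ω)) := by
    have e1 : ((R.ex (fun ω => ‖Sn n (y 0 ω)‖ ^ 2 * ‖Sn n (y 1 ω)‖ ^ 2) : ℝ) : ℂ) =
        cex R (fun ω => ∑ j ∈ range n, ∑ j' ∈ range n, ∑ l ∈ range n, ∑ l' ∈ range n,
          ch (((j : ℤ) - (j' : ℤ) : ℤ) * y 0 ω) * ch (((l : ℤ) - (l' : ℤ) : ℤ) * y 1 ω)) := by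
      unfold Law.ex cex
      rw [Complex.ofReal_sum]
      refine Finset.sum_congr rfl fun ω _ => ?_
      rw [Complex.ofReal_mul, Complex.ofReal_mul, Sn_normSq, Sn_normSq]
      congr 1
      simp only [Finset.sum_mul]
      simp only [Finset.mul_sum]
    rw [e1, cex_sum]
    refine Finset.sum_congr rfl fun j _ => ?_
    rw [cex_sum]
    refine Finset.sum_congr rfl fun j' _ => ?_
    rw [cex_sum]
    refine Finset.sum_congr rfl fun l _ => ?_
    rw [cex_sum]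
  have h3 : ∀ a b : ℤ, ‖cex R (fun ω => ch ((a : ℝ) * y 0 ω) * ch ((b : ℝ) * y 1 ω))‖ =
      ‖fq R x ![a, b]‖ := by
    intro a b
    have h4 : ∀ ω, ch ((a : ℝ) * y 0 ω) * ch ((b : ℝ) * y 1 ω) =
        ch (-(a * z 0 + b * z 1)) * ch (a * x ω 0 + b * x ω 1) := by
      intro ω
      rw [← ch_add, ← ch_add, ← ch_add_int _ (a * ⌊x ω 0⌋ + b * ⌊x ω 1⌋)]
      congr 1
      simp only [hy, Int.fract]
      push_cast
      ring
    have h5 : cex R (fun ω => ch ((a : ℝ) * y 0 ω) * ch ((b : ℝ) * y 1 ω)) =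
        ch (-(a * z 0 + b * z 1)) * fq R x ![a, b] := by
      unfold fq
      rw [← cex_const_mul]
      refine cex_congr R fun ω _ => ?_
      rw [h4 ω]
      simp
    rw [h5, norm_mul, norm_ch, one_mul]
  have h4 : R.ex (fun ω => ‖Sn n (y 0 ω)‖ ^ 2 * ‖Sn n (y 1 ω)‖ ^ 2) ≤
      ‖((R.ex (fun ω => ‖Sn n (y 0 ω)‖ ^ 2 * ‖Sn n (y 1 ω)‖ ^ 2) : ℝ) : ℂ)‖ := by
    rw [Complex.norm_real]
    exact le_abs_self _
  refine h4.trans ?_
  rw [h2]
  unfold tq
  refine (norm_sum_le _ _).trans (Finset.sum_le_sum fun j _ => ?_)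
  refine (norm_sum_le _ _).trans (Finset.sum_le_sum fun j' _ => ?_)
  refine (norm_sum_le _ _).trans (Finset.sum_le_sum fun l _ => ?_)
  refine (norm_sum_le _ _).trans (Finset.sum_le_sum fun l' _ => ?_)
  exact (h3 _ _).le

lemma tq_nonneg (P : Law Ω) (x : Ω → Fin 2 → ℝ) (n : ℕ) : 0 ≤ tq P x n :=
  Finset.sum_nonneg fun _ _ => Finset.sum_nonneg fun _ _ => Finset.sum_nonneg fun _ _ =>
    Finset.sum_nonneg fun _ _ => norm_nonneg _

/-- the average total mass -/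
lemma ex_tq_le (P : Law Ω) (D : Ω → U) (x : Ω → Fin 2 → ℝ) (w : U → ℝ)
    (hw1 : ∀ d, w d ≤ 1) (n : ℕ) (r : ℝ) (hr : 0 ≤ r)
    (h : ∀ ξ : Fin 2 → ℤ, ξ ≠ 0 → (∀ i, |ξ i| < n) →
      P.ex (fun ω => w (D ω) * ‖fq (P.cond D (D ω)) x ξ‖) ≤ r) :
    P.ex (fun ω => w (D ω) * tq (P.cond D (D ω)) x n) ≤ n ^ 2 + n ^ 4 * r := by
  classical
  have h1 : P.ex (fun ω => w (D ω) * tq (P.cond D (D ω)) x n) =
      ∑ j ∈ range n, ∑ j' ∈ range n, ∑ l ∈ range n, ∑ l' ∈ range n,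
        P.ex (fun ω => w (D ω) *
          ‖fq (P.cond D (D ω)) x ![(j : ℤ) - (j' : ℤ), (l : ℤ) - (l' : ℤ)]‖) := by
    unfold tq Law.ex
    simp only [Finset.mul_sum]
    rw [Finset.sum_comm]
    refine Finset.sum_congr rfl fun j _ => ?_
    rw [Finset.sum_comm]
    refine Finset.sum_congr rfl fun j' _ => ?_
    rw [Finset.sum_comm]
    refine Finset.sum_congr rfl fun l _ => ?_
    rw [Finset.sum_comm]
  rw [h1]
  have h2 : ∀ j ∈ range n, ∀ j' ∈ range n, ∀ l ∈ range n, ∀ l' ∈ range n,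
      P.ex (fun ω => w (D ω) *
          ‖fq (P.cond D (D ω)) x ![(j : ℤ) - (j' : ℤ), (l : ℤ) - (l' : ℤ)]‖) ≤
        (if j = j' then (if l = l' then 1 else 0) else 0) + r := by
    intro j hj j' hj' l hl l' hl'
    rw [Finset.mem_range] at hj hj' hl hl'
    by_cases h3 : j = j' ∧ l = l'
    · obtain ⟨h3, h4⟩ := h3
      rw [if_pos h3, if_pos h4]
      have h5 : P.ex (fun ω => w (D ω) *
          ‖fq (P.cond D (D ω)) x ![(j : ℤ) - (j' : ℤ), (l : ℤ) - (l' : ℤ)]‖) ≤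
          P.ex (fun _ => 1) := by
        refine P.ex_mono fun ω _ => ?_
        exact mul_le_one₀ (hw1 _) (norm_nonneg _) (norm_fq_le_one _ _ _)
      rw [P.ex_const] at h5
      linarith
    · have h4 : (if j = j' then (if l = l' then (1 : ℝ) else 0) else 0) = 0 := by
        split_ifs with h5 h6
        · exact absurd ⟨h5, h6⟩ h3
        · rfl
        · rfl
      rw [h4, zero_add]
      refine h _ ?_ ?_
      · intro h5
        apply h3
        have h6 := congrFun h5 0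
        have h7 := congrFun h5 1
        simp at h6 h7
        constructor
        · omega
        · omega
      · intro i
        fin_cases i
        · simp only [Fin.zero_eta, Matrix.cons_val_zero]
          rw [abs_lt]
          constructor <;> omega
        · simp only [Fin.mk_one, Matrix.cons_val_one, Matrix.cons_val_fin_one]
          rw [abs_lt]
          constructor <;> omega
  refine (Finset.sum_le_sum fun j hj => Finset.sum_le_sum fun j' hj' =>
    Finset.sum_le_sum fun l hl => Finset.sum_le_sum fun l' hl' => h2 j hj j' hj' l hl l' hl').trans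
      (le_of_eq ?_)
  simp only [Finset.sum_add_distrib, Finset.sum_const, Finset.card_range, nsmul_eq_mul]
  have h3 : ∀ j ∈ range n, ∑ j' ∈ range n, ∑ l ∈ range n, ∑ l' ∈ range n,
      (if j = j' then (if l = l' then (1 : ℝ) else 0) else 0) = n := by
    intro j hj
    rw [Finset.sum_eq_single j]
    · have h4 : ∀ l ∈ range n, ∑ l' ∈ range n, (if j = j then (if l = l' then (1 : ℝ) else 0) else 0)
          = 1 := by
        intro l hl
        simp only [if_true]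
        rw [Finset.sum_ite_eq]
        rw [if_pos hl]
      rw [Finset.sum_congr rfl h4]
      simp
    · intro j' _ hne
      refine Finset.sum_eq_zero fun l _ => Finset.sum_eq_zero fun l' _ => ?_
      rw [if_neg fun h => hne h.symm]
    · intro h
      exact absurd hj h
  rw [Finset.sum_congr rfl h3]
  simp only [Finset.sum_const, Finset.card_range, nsmul_eq_mul]
  ring

/-- pointwise form of the conditional entropy -/
lemma hc_eq_ex (P : Law Ω) (Z : Ω → S) (D : Ω → U) :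
    hc P Z D = P.ex (fun ω => -Real.log ((P.cond D (D ω)).pr Z (Z ω))) := by
  unfold hc Law.H
  rw [← P.ex_sub]
  refine P.ex_congr fun ω hω => ?_
  have h1 := P.pr_pos D hω
  have h2 := P.pr_pos (fun ω => (Z ω, D ω)) hω
  rw [P.cond_pr D (D ω) h1, Real.log_div h2.ne' h1.ne']
  ring

/-- **Fejér lemma**: Fourier decay on average over `D` gives full conditional entropy.  `w` is the
indicator of the good values of `D`. -/
theorem fej' (P : Law Ω) (D : Ω → U) (x : Ω → Fin 2 → ℝ) (w : U → ℝ) (hw0 : ∀ d, 0 ≤ w d)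
    (hw1 : ∀ d, w d ≤ 1) (k : ℕ)
    (h : ∀ ξ : Fin 2 → ℤ, ξ ≠ 0 → (∀ i, |ξ i| < 2 ^ k) →
      P.ex (fun ω => w (D ω) * ‖fq (P.cond D (D ω)) x ξ‖) ≤ (1 / 4) ^ k) :
    P.ex (fun ω => w (D ω)) * (2 * (k + 1) * Real.log 2) - 5 ≤
      hc P (fun ω => fl (k + 1) (fun i => Int.fract (x ω i))) D := by
  classical
  set Z : Ω → Fin 2 → ℤ := fun ω => fl (k + 1) (fun i => Int.fract (x ω i)) with hZ
  set N : ℝ := (2 : ℝ) ^ k with hN
  have hN0 : 0 < N := by positivity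
  have h1 := ex_tq_le P D x w hw1 (2 ^ k) ((1 / 4) ^ k) (by positivity) (by
    intro ξ h1 h2
    refine h ξ h1 fun i => ?_
    have := h2 i
    push_cast at this
    exact this)
  have hN4 : ((1 : ℝ) / 4) ^ k = 1 / N ^ 2 := by
    rw [hN, ← pow_mul, mul_comm k 2, pow_mul, one_div, one_div, inv_pow]
    norm_num
  have hcast : (((2 ^ k : ℕ)) : ℝ) = N := by push_cast; rfl
  rw [hcast, hN4] at h1
  have h2 : N ^ 2 + N ^ 4 * (1 / N ^ 2) = 2 * N ^ 2 := by field_simp; ring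
  rw [h2] at h1
  -- `a = 32 / N ^ 2`
  set a : ℝ := 32 / N ^ 2 with ha
  have ha0 : 0 < a := by positivity
  set q : U → ℝ := fun d => 16 / N ^ 4 * tq (P.cond D d) x (2 ^ k) with hq
  have hqa : P.ex (fun ω => w (D ω) * q (D ω)) ≤ a := by
    have h3 : P.ex (fun ω => w (D ω) * q (D ω)) =
        16 / N ^ 4 * P.ex (fun ω => w (D ω) * tq (P.cond D (D ω)) x (2 ^ k)) := by
      rw [← P.ex_const_mul]
      refine P.ex_congr fun ω _ => ?_
      simp only [hq]
      ring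
    rw [h3]
    calc _ ≤ 16 / N ^ 4 * (2 * N ^ 2) := mul_le_mul_of_nonneg_left h1 (by positivity)
      _ = a := by rw [ha]; field_simp; norm_num
  have h3 : ∀ ω, 0 < P.w ω → w (D ω) * (1 - Real.log a) - (1 / a) * (w (D ω) * q (D ω)) ≤
      -Real.log ((P.cond D (D ω)).pr Z (Z ω)) := by
    intro ω hω
    have hp : 0 < (P.cond D (D ω)).pr Z (Z ω) := by
      rw [P.cond_pr D (D ω) (P.pr_pos D hω)]
      exact div_pos (P.pr_pos (fun ω => (Z ω, D ω)) hω) (P.pr_pos D hω)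
    have hp1 : (P.cond D (D ω)).pr Z (Z ω) ≤ q (D ω) := pr_cell_le _ x k _
    have hp2 := (P.cond D (D ω)).pr_le_one Z (Z ω)
    have hq0 : 0 < q (D ω) := hp.trans_le hp1
    have h4 : Real.log ((P.cond D (D ω)).pr Z (Z ω)) ≤ Real.log (q (D ω)) :=
      Real.log_le_log hp hp1
    have h5 : Real.log (q (D ω)) ≤ Real.log a + (q (D ω) / a - 1) := by
      have h6 := Real.log_le_sub_one_of_pos (div_pos hq0 ha0)
      rw [Real.log_div hq0.ne' ha0.ne'] at h6
      linarith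
    have h6 : Real.log ((P.cond D (D ω)).pr Z (Z ω)) ≤ 0 := Real.log_nonpos hp.le hp2
    have h7 : w (D ω) * ((1 - Real.log a) - q (D ω) / a) ≤
        w (D ω) * (-Real.log ((P.cond D (D ω)).pr Z (Z ω))) :=
      mul_le_mul_of_nonneg_left (by linarith) (hw0 _)
    have h8 : w (D ω) * (-Real.log ((P.cond D (D ω)).pr Z (Z ω))) ≤
        1 * (-Real.log ((P.cond D (D ω)).pr Z (Z ω))) :=
      mul_le_mul_of_nonneg_right (hw1 _) (by linarith)
    have h9 : w (D ω) * ((1 - Real.log a) - q (D ω) / a) =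
        w (D ω) * (1 - Real.log a) - (1 / a) * (w (D ω) * q (D ω)) := by
      field_simp
    linarith
  have h4 := P.ex_mono h3
  rw [← hc_eq_ex, P.ex_sub, P.ex_const_mul] at h4
  have h5 : P.ex (fun ω => w (D ω) * (1 - Real.log a)) =
      P.ex (fun ω => w (D ω)) * (1 - Real.log a) := by
    rw [mul_comm, ← P.ex_const_mul]
    exact P.ex_congr fun ω _ => mul_comm _ _
  rw [h5] at h4
  have h6 : (1 / a) * P.ex (fun ω => w (D ω) * q (D ω)) ≤ 1 := by
    rw [one_div, inv_mul_le_iff₀ ha0, mul_one]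
    exact hqa
  have h7 : Real.log a = 5 * Real.log 2 - 2 * k * Real.log 2 := by
    rw [ha, hN, Real.log_div (by norm_num) (by positivity), ← pow_mul, Real.log_pow,
      show (32 : ℝ) = 2 ^ 5 by norm_num, Real.log_pow]
    push_cast
    ring
  have hw : P.ex (fun ω => w (D ω)) ≤ 1 := by
    have := P.ex_mono (f := fun ω => w (D ω)) (g := fun _ => 1) fun ω _ => hw1 _
    rwa [P.ex_const] at this
  have hw' : 0 ≤ P.ex (fun ω => w (D ω)) := P.ex_nonneg fun ω _ => hw0 _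
  have hlog : Real.log 2 < 0.6931471808 := Real.log_two_lt_d9
  have hlog' : 0.6931471803 < Real.log 2 := Real.log_two_gt_d9
  rw [h7] at h4
  nlinarith

/-- **Fejér lemma**, `k` digits -/
theorem fej (P : Law Ω) (D : Ω → U) (x : Ω → Fin 2 → ℝ) (w : U → ℝ) (hw0 : ∀ d, 0 ≤ w d)
    (hw1 : ∀ d, w d ≤ 1) (k : ℕ)
    (h : ∀ ξ : Fin 2 → ℤ, ξ ≠ 0 → (∀ i, |ξ i| < 2 ^ k) →
      P.ex (fun ω => w (D ω) * ‖fq (P.cond D (D ω)) x ξ‖) ≤ (1 / 4) ^ k) :
    P.ex (fun ω => w (D ω)) * (2 * k * Real.log 2) - 5 ≤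
      hc P (fun ω => fl k (fun i => Int.fract (x ω i))) D := by
  rcases k with _ | k
  · have h1 := hc_nonneg P (fun ω => fl 0 (fun i => Int.fract (x ω i))) D
    simp only [Nat.cast_zero, mul_zero, zero_mul]
    linarith
  · have h1 := fej' P D x w hw0 hw1 k (fun ξ h2 h3 => by
      refine (h ξ h2 fun i => (h3 i).trans_le ?_).trans ?_
      · exact_mod_cast Nat.pow_le_pow_right (by norm_num) (Nat.le_succ k)
      · exact pow_le_pow_of_le_one (by norm_num) (by norm_num) (Nat.le_succ k))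
    push_cast
    exact h1

end Vale.Agent.P127.U.Four
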