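import Vale.Agent.P127.U.H824.IncUse

/-!
# P127 / U / H824 : superseded by `IncUse` (helper824)
-/
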